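import Vale.Agent.P084.Smooth.Near

/-!
P084 for uniformly convex spaces: good directions and the shared elementary geometry.
-/

open Filter Topology Metric

namespace Vale.Agent.P084.UC

open Vale.Agent.P084.Smooth

universe u v

variable {X : Type u} [NormedAddCommGroup X] [NormedSpace ℝ X]
  {Y : Type v} [NormedAddCommGroup Y] [NormedSpace ℝ Y]

/-- a direction in which weakly null sequences of radius `≤ ρ` gain at most `b`, and which is flat
up to `b'` at scale `t` -/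
structure Good (d : X) (ρ t b b' : ℝ) : Prop where
  norm_one : ‖d‖ = 1
  gain_le : ∀ ν : ℕ → X, Bdd ν → WL ν 0 → rad ν ≤ ρ → (ulim fun n => ‖d + ν n‖) ≤ 1 + b
  flat : ∀ h : X, ‖h‖ ≤ t → ‖d + h‖ + ‖d - h‖ ≤ 2 + b'

/-- good directions are `a`-dense in the sphere -/
def GoodDense (X : Type u) [NormedAddCommGroup X] [NormedSpace ℝ X] (a ρ t b b' : ℝ) : Prop :=
  ∀ d₀ : X, ‖d₀‖ = 1 → ∃ d : X, ‖d - d₀‖ ≤ a ∧ Good d ρ t b b'

/-- the unit vector along a chord -/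
noncomputable def chordDir (z w : X) : X := ‖z - w‖⁻¹ • (z - w)

/-- uniform convexity on the unit ball, in the form used here -/
theorem uc_ball (E : Type u) [NormedAddCommGroup E] [NormedSpace ℝ E] [UniformConvexSpace E]
    {η : ℝ} (hη : 0 < η) :
    ∃ c : ℝ, 0 < c ∧ c ≤ 1 ∧ ∀ (R : ℝ) (a b : E), ‖a‖ ≤ R → ‖b‖ ≤ R → η * R ≤ ‖a - b‖ →
      ‖a + b‖ ≤ (2 - c) * R := by
  obtain ⟨δ, hδ, H⟩ := exists_forall_closed_ball_dist_add_le_two_sub E hη
  refine ⟨min δ 1, lt_min hδ one_pos, min_le_right _ _, fun R a b ha hb hab => ?_⟩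
  rcases ((norm_nonneg a).trans ha).eq_or_lt with h | hR
  · rw [← h] at ha hb ⊢
    simp [norm_le_zero_iff.1 ha, norm_le_zero_iff.1 hb]
  have hR' : 0 ≤ R⁻¹ := inv_nonneg.2 hR.le
  have h1 := H (x := R⁻¹ • a) (y := R⁻¹ • b)
    (by rw [norm_smul_of_nonneg hR', inv_mul_le_iff₀ hR, mul_one]; exact ha)
    (by rw [norm_smul_of_nonneg hR', inv_mul_le_iff₀ hR, mul_one]; exact hb)
    (by rw [← smul_sub, norm_smul_of_nonneg hR', le_inv_mul_iff₀ hR, mul_comm]; exact hab)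
  rw [← smul_add, norm_smul_of_nonneg hR', inv_mul_le_iff₀ hR] at h1
  nlinarith [min_le_left δ 1]

/-- a chord is transversal to the sphere at both of its ends -/
theorem chord_slope (E : Type u) [NormedAddCommGroup E] [NormedSpace ℝ E] [UniformConvexSpace E]
    {l : ℝ} (hl : 0 < l) :
    ∃ κ : ℝ, 0 < κ ∧ κ ≤ 1 ∧ ∀ z w : E, ‖z‖ = 1 → ‖w‖ = 1 → l ≤ ‖z - w‖ →
      (∀ ψ : StrongDual ℝ E, (∀ a, ψ a ≤ ‖a‖) → ψ w = 1 → ψ (chordDir z w) ≤ -κ) ∧
      ∀ t : ℝ, 0 ≤ t → t ≤ ‖z - w‖ / 2 → ‖w + t • chordDir z w‖ ≤ 1 - κ * t := by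
  obtain ⟨c, hc, hc1, H⟩ := uc_ball E hl
  refine ⟨c / 2, by positivity, by linarith, fun z w hz hw hzw => ?_⟩
  have hL : 0 < ‖z - w‖ := hl.trans_le hzw
  have hL2 : ‖z - w‖ ≤ 2 := (norm_sub_le z w).trans (by rw [hz, hw]; norm_num)
  have hsum := H 1 z w hz.le hw.le (by rwa [mul_one])
  rw [mul_one] at hsum
  have hz' : ‖z - w‖ • chordDir z w = z - w := smul_inv_smul₀ hL.ne' _
  refine ⟨fun ψ hψ hψw => ?_, fun t ht htL => ?_⟩
  · have h1 := hψ (z + w)
    have h2 : ψ z = ψ w + ‖z - w‖ * ψ (chordDir z w) := by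
      rw [← smul_eq_mul, ← map_smul, hz', map_sub]; ring
    rw [map_add, h2, hψw] at h1
    nlinarith
  · set s := t / (‖z - w‖ / 2) with hs
    have hs0 : 0 ≤ s := by positivity
    have hs1 : s ≤ 1 := by rw [hs, div_le_one (by positivity)]; exact htL
    have e : w + t • chordDir z w = (1 - s) • w + (s / 2) • (z + w) := by
      rw [chordDir, smul_smul, show t * ‖z - w‖⁻¹ = s / 2 by rw [hs]; field_simp]
      module
    rw [e]
    refine (norm_add_le _ _).trans ?_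
    rw [norm_smul_of_nonneg (by linarith), norm_smul_of_nonneg (by positivity), hw, mul_one]
    have h1 := mul_le_mul_of_nonneg_left hsum (show 0 ≤ s / 2 by positivity)
    have h2 : t ≤ s := by
      rw [hs, le_div_iff₀ (by positivity)]; exact mul_le_of_le_one_right ht (by linarith)
    nlinarith

/-- chords from `a` in directions near `a` are long -/
theorem long_chord {a k : X} (ha : ‖a‖ = 1) (hk : ‖k‖ = 1) (hak : ‖k - a‖ ≤ 1 / 8) :
    ∃ L : ℝ, 7 / 4 ≤ L ∧ L ≤ 9 / 4 ∧ ‖a - L • k‖ = 1 ∧ |L - 2| ≤ L * ‖k - a‖ := by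
  have hf : ∀ t : ℝ, 0 ≤ t → abs (‖a - t • k‖ - |1 - t|) ≤ t * ‖k - a‖ := by
    intro t ht
    have e : a - t • k = (1 - t) • a - t • (k - a) := by module
    have h1 : ‖(1 - t) • a‖ = |1 - t| := by rw [norm_smul, ha, mul_one, Real.norm_eq_abs]
    rw [e, ← h1]
    refine (abs_norm_sub_norm_le _ _).trans (le_of_eq ?_)
    rw [show (1 - t) • a - t • (k - a) - (1 - t) • a = -(t • (k - a)) by abel, norm_neg,
      norm_smul_of_nonneg ht]
  have hlo : ‖a - (7 / 4 : ℝ) • k‖ ≤ 1 := by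
    have h := (abs_le.1 (hf (7 / 4) (by norm_num))).2
    norm_num at h
    linarith
  have hhi : 1 ≤ ‖a - (9 / 4 : ℝ) • k‖ := by
    have h := norm_sub_norm_le ((9 / 4 : ℝ) • k) a
    rw [norm_smul_of_nonneg (by norm_num), hk, ha, norm_sub_rev] at h
    linarith
  obtain ⟨L, ⟨h1, h2⟩, hL⟩ := intermediate_value_Icc (by norm_num : (7 / 4 : ℝ) ≤ 9 / 4)
    (show ContinuousOn (fun t : ℝ => ‖a - t • k‖) (Set.Icc (7 / 4) (9 / 4)) by fun_prop) ⟨hlo, hhi⟩
  refine ⟨L, h1, h2, hL, ?_⟩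
  have h := hf L (by linarith)
  simp only at hL
  rw [hL, abs_of_nonpos (by linarith : 1 - L ≤ 0), abs_le] at h
  rw [abs_le]
  constructor <;> linarith

/-- a sequence on the sphere carries a state -/
theorem exists_st' [CompleteSpace Y] [UniformConvexSpace Y]
    {f : sphere (0 : X) 1 ≃ᵢ sphere (0 : Y) 1} {r : ℝ} {x : ℕ → X} {v : X}
    (hx : ∀ᶠ n in (U0 : Filter ℕ), ‖x n‖ = 1) (hv : WL x v) (hr : rad x ≤ r) :
    ∃ st : St f r, st.x = x ∧ st.v = v := by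
  classical
  set y : ℕ → Y := fun n =>
    if h : ‖x n‖ = 1 then (f ⟨x n, mem_sphere_zero_iff_norm.2 h⟩ : Y) else 0 with hy
  obtain ⟨u, hu⟩ := exists_wl (x := y) (M := 1) fun n => by
    simp only [hy]
    split
    · exact (sph_norm _).le
    · simp
  refine ⟨⟨x, y, v, u, hx.mono fun n hn => ⟨⟨x n, mem_sphere_zero_iff_norm.2 hn⟩, rfl, ?_⟩, hv, hu,
    hr⟩, rfl, rfl⟩
  simp only [hy, dif_pos hn]

/-- `f` commutes with the antipodal maps -/
def OddMap (f : sphere (0 : X) 1 ≃ᵢ sphere (0 : Y) 1) : Prop :=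
  ∀ a b : sphere (0 : X) 1, (b : X) = -(a : X) → (f b : Y) = -(f a : Y)

/-- every linear relation between three points of the sphere is kept up to `η` -/
def AddClose (f : sphere (0 : X) 1 ≃ᵢ sphere (0 : Y) 1) (η : ℝ) : Prop :=
  ∀ (a b c : sphere (0 : X) 1) (α β γ : ℝ), |α| ≤ 1 → |β| ≤ 1 → |γ| ≤ 1 →
    α • (a : X) + β • (b : X) + γ • (c : X) = 0 →
      ‖α • (f a : Y) + β • (f b : Y) + γ • (f c : Y)‖ ≤ η

end Vale.Agent.P084.UC
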