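import Vale.Agent.P084.Smooth.GainBasic

/-!
P084: martingale walks in a uniformly convex space. Steps of mean zero whose length is at most `h`
cannot raise the norm by more than `C h ^ p` each, for some `p > 1`, everywhere in a ball.
-/

open Filter Topology

namespace Vale.Agent.P084.UC

open Vale.Agent.P084.Smooth

universe u

variable {E : Type u} [NormedAddCommGroup E] [NormedSpace ℝ E]

/-- one mean that covers symmetric two-point steps and weakly null sequences -/
noncomputable def avg (a : ℕ → ℝ) : ℝ :=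
  ((ulim fun n => a (2 * n)) + ulim fun n => a (2 * n + 1)) / 2

theorem tendsto_of_bound {a : ℕ → ℝ} {B : ℝ} (h : ∀ n, |a n| ≤ B) :
    Tendsto a U0 (𝓝 (ulim a)) :=
  ulim_spec (lo := -B) (hi := B) (Eventually.of_forall fun n => abs_le.mp (h n))

theorem avg_const (r : ℝ) : avg (fun _ => r) = r := by
  simp [avg, ulim_eq tendsto_const_nhds]

theorem avg_mono {a b : ℕ → ℝ} {A B : ℝ} (ha : ∀ n, |a n| ≤ A) (hb : ∀ n, |b n| ≤ B)
    (h : ∀ n, a n ≤ b n) : avg a ≤ avg b := by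
  have h1 := le_of_tendsto_of_tendsto' (tendsto_of_bound fun n => ha (2 * n))
    (tendsto_of_bound fun n => hb (2 * n)) fun n => h _
  have h2 := le_of_tendsto_of_tendsto' (tendsto_of_bound fun n => ha (2 * n + 1))
    (tendsto_of_bound fun n => hb (2 * n + 1)) fun n => h _
  unfold avg
  linarith

theorem avg_lin {a b : ℕ → ℝ} {A B : ℝ} (s t : ℝ) (ha : ∀ n, |a n| ≤ A) (hb : ∀ n, |b n| ≤ B) :
    avg (fun n => s * a n + t * b n) = s * avg a + t * avg b := by
  have h : ∀ u : ℕ → ℕ, (ulim fun n => s * a (u n) + t * b (u n)) =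
      (s * ulim fun n => a (u n)) + t * ulim fun n => b (u n) := fun u =>
    ulim_eq (((tendsto_of_bound fun n => ha (u n)).const_mul s).add
      ((tendsto_of_bound fun n => hb (u n)).const_mul t))
  unfold avg
  rw [h fun n => 2 * n, h fun n => 2 * n + 1]
  ring

theorem avg_abs_le {a : ℕ → ℝ} {A : ℝ} (ha : ∀ n, |a n| ≤ A) : |avg a| ≤ A := by
  have hA : ∀ r : ℝ, |r| ≤ A → ∀ _n : ℕ, |r| ≤ A := fun r h _ => h
  have h0 : 0 ≤ A := (abs_nonneg _).trans (ha 0)
  rw [abs_le]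
  constructor
  · have h1 := avg_mono (hA (-A) (by rw [abs_neg, abs_of_nonneg h0])) ha
      fun n => (abs_le.mp (ha n)).1
    rwa [avg_const] at h1
  · have h1 := avg_mono ha (hA A (abs_of_nonneg h0).le) fun n => (abs_le.mp (ha n)).2
    rwa [avg_const] at h1

/-- bounded on bounded sets -/
def LB (F : E → ℝ) : Prop := ∀ R : ℝ, ∃ B : ℝ, ∀ x, ‖x‖ ≤ R → |F x| ≤ B

/-- an admissible field of steps -/
structure Field (b : E → ℕ → E) (h : ℝ) : Prop where
  bound : ∀ x n, ‖b x n‖ ≤ h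
  mean : ∀ x (φ : StrongDual ℝ E), avg (fun n => φ (b x n)) = 0

/-- one step of the walk, acting on functions -/
noncomputable def step (b : E → ℕ → E) (F : E → ℝ) : E → ℝ :=
  fun x => avg fun n => F (x + b x n)

variable {b : E → ℕ → E} {h : ℝ}

theorem Field.vals (hb : Field b h) {F : E → ℝ} (hF : LB F) (x : E) :
    ∃ B, ∀ n, |F (x + b x n)| ≤ B := by
  obtain ⟨B, hB⟩ := hF (‖x‖ + h)
  exact ⟨B, fun n => hB _ ((norm_add_le _ _).trans (by linarith [hb.bound x n]))⟩

theorem Field.lb_step (hb : Field b h) {F : E → ℝ} (hF : LB F) : LB (step b F) := by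
  intro R
  obtain ⟨B, hB⟩ := hF (R + h)
  exact ⟨B, fun x hx => avg_abs_le fun n =>
    hB _ ((norm_add_le _ _).trans (by linarith [hb.bound x n]))⟩

theorem Field.lb_iter (hb : Field b h) {F : E → ℝ} (hF : LB F) (k : ℕ) :
    LB ((step b)^[k] F) := by
  induction k with
  | zero => exact hF
  | succ k ih => rw [Function.iterate_succ_apply']; exact hb.lb_step ih

theorem Field.step_mono (hb : Field b h) {F G : E → ℝ} (hF : LB F) (hG : LB G)
    (hFG : ∀ x, F x ≤ G x) (x : E) : step b F x ≤ step b G x := by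
  obtain ⟨A, hA⟩ := hb.vals hF x
  obtain ⟨B, hB⟩ := hb.vals hG x
  exact avg_mono hA hB fun n => hFG _

theorem Field.iter_mono (hb : Field b h) {F G : E → ℝ} (hF : LB F) (hG : LB G)
    (hFG : ∀ x, F x ≤ G x) (k : ℕ) : ∀ x, (step b)^[k] F x ≤ (step b)^[k] G x := by
  induction k with
  | zero => exact hFG
  | succ k ih =>
    intro x
    rw [Function.iterate_succ_apply', Function.iterate_succ_apply']
    exact hb.step_mono (hb.lb_iter hF k) (hb.lb_iter hG k) ih x

omit [NormedSpace ℝ E] in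
theorem lb_lin {F G : E → ℝ} (hF : LB F) (hG : LB G) (s t : ℝ) :
    LB fun x => s * F x + t * G x := by
  intro R
  obtain ⟨A, hA⟩ := hF R
  obtain ⟨B, hB⟩ := hG R
  refine ⟨|s| * A + |t| * B, fun x hx => (abs_add_le _ _).trans (add_le_add ?_ ?_)⟩ <;>
    rw [abs_mul]
  · exact mul_le_mul_of_nonneg_left (hA x hx) (abs_nonneg s)
  · exact mul_le_mul_of_nonneg_left (hB x hx) (abs_nonneg t)

omit [NormedSpace ℝ E] in
theorem lb_const (r : ℝ) : LB fun _ : E => r := fun _ => ⟨|r|, fun _ _ => le_rfl⟩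

theorem lb_functional (φ : StrongDual ℝ E) : LB fun x => φ x := fun R =>
  ⟨‖φ‖ * R, fun x hx => (φ.le_opNorm x).trans (mul_le_mul_of_nonneg_left hx (norm_nonneg _))⟩

omit [NormedSpace ℝ E] in
theorem lb_dist (x₀ : E) : LB fun x => ‖x - x₀‖ ^ 2 := fun R =>
  ⟨(R + ‖x₀‖) ^ 2, fun x hx => by
    rw [abs_of_nonneg (sq_nonneg _)]
    exact pow_le_pow_left₀ (norm_nonneg _) ((norm_sub_le _ _).trans (by linarith)) 2⟩

omit [NormedSpace ℝ E] in
theorem lb_norm : LB fun x : E => ‖x‖ := fun R => ⟨R, fun x hx => by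
  rwa [abs_of_nonneg (norm_nonneg x)]⟩

theorem Field.iter_lin (hb : Field b h) {F G : E → ℝ} (hF : LB F) (hG : LB G) (s t : ℝ)
    (k : ℕ) : ∀ x, (step b)^[k] (fun y => s * F y + t * G y) x =
      s * (step b)^[k] F x + t * (step b)^[k] G x := by
  induction k with
  | zero => exact fun _ => rfl
  | succ k ih =>
    intro x
    rw [Function.iterate_succ_apply', Function.iterate_succ_apply', Function.iterate_succ_apply',
      funext ih]
    obtain ⟨A, hA⟩ := hb.vals (hb.lb_iter hF k) x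
    obtain ⟨B, hB⟩ := hb.vals (hb.lb_iter hG k) x
    exact avg_lin s t hA hB

theorem Field.iter_const (_hb : Field b h) (r : ℝ) (k : ℕ) :
    ∀ x, (step b)^[k] (fun _ => r) x = r := by
  induction k with
  | zero => exact fun _ => rfl
  | succ k ih =>
    intro x
    rw [Function.iterate_succ_apply', funext ih]
    exact avg_const r

theorem Field.iter_functional (hb : Field b h) (φ : StrongDual ℝ E) (r : ℝ) (k : ℕ) :
    ∀ x, (step b)^[k] (fun y => φ y + r) x = φ x + r := by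
  induction k with
  | zero => exact fun _ => rfl
  | succ k ih =>
    intro x
    rw [Function.iterate_succ_apply', funext ih]
    have hB : ∀ n, |φ (b x n)| ≤ ‖φ‖ * h := fun n =>
      (φ.le_opNorm _).trans (mul_le_mul_of_nonneg_left (hb.bound x n) (norm_nonneg _))
    have h1 := avg_lin 1 1 (a := fun n => φ (b x n)) (b := fun _ => φ x + r) hB
      (fun _ => le_rfl)
    rw [hb.mean x φ, avg_const] at h1
    simp only [one_mul, zero_add] at h1
    rw [← h1]
    show avg (fun n => φ (x + b x n) + r) = _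
    congr 1
    funext n
    rw [map_add]
    ring

/-- the subgradient inequality for the square of the norm -/
theorem sq_ge (x k : E) : ‖x‖ ^ 2 + 2 * ‖x‖ * J x k ≤ ‖x + k‖ ^ 2 := by
  have h1 := add_J_le x k
  rcases le_total 0 (‖x‖ + J x k) with h0 | h0
  · have := pow_le_pow_left₀ h0 h1 2
    nlinarith [sq_nonneg (J x k)]
  · nlinarith [norm_nonneg x, sq_nonneg ‖x + k‖]

theorem Field.dist_step (hb : Field b h) (x₀ x : E) :
    ‖x - x₀‖ ^ 2 ≤ step b (fun y => ‖y - x₀‖ ^ 2) x := by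
  obtain ⟨B, hB⟩ := hb.vals (lb_dist x₀) x
  have hA : ∀ n, |‖x - x₀‖ ^ 2 + 2 * ‖x - x₀‖ * J (x - x₀) (b x n)| ≤
      ‖x - x₀‖ ^ 2 + 2 * ‖x - x₀‖ * h := fun n => by
    refine (abs_add_le _ _).trans (add_le_add (abs_of_nonneg (sq_nonneg _)).le ?_)
    rw [abs_mul, abs_of_nonneg (by positivity)]
    refine mul_le_mul_of_nonneg_left ((abs_le.mpr ⟨?_, J_le _ _⟩).trans (hb.bound x n))
      (by positivity)
    exact neg_le_J _ _
  have h1 := avg_mono hA hB fun n => by
    simpa [sub_add_eq_add_sub] using sq_ge (x - x₀) (b x n)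
  have h2 := avg_lin 1 (2 * ‖x - x₀‖) (a := fun _ => ‖x - x₀‖ ^ 2)
    (b := fun n => J (x - x₀) (b x n)) (fun _ => le_rfl) (B := h) fun n =>
      (abs_le.mpr ⟨neg_le_J _ _, J_le _ _⟩).trans (hb.bound x n)
  rw [hb.mean, avg_const] at h2
  simp only [one_mul, mul_zero, add_zero] at h2
  exact h2.ge.trans h1

theorem Field.dist_mono (hb : Field b h) (x₀ x : E) {i n : ℕ} (hin : i ≤ n) :
    (step b)^[i] (fun y => ‖y - x₀‖ ^ 2) x ≤ (step b)^[n] (fun y => ‖y - x₀‖ ^ 2) x := by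
  induction n, hin using Nat.le_induction with
  | base => exact le_rfl
  | succ k _ ih =>
    refine ih.trans ?_
    rw [Function.iterate_succ_apply]
    exact hb.iter_mono (lb_dist x₀) (hb.lb_step (lb_dist x₀)) (hb.dist_step x₀) k x

section Convex

variable [UniformConvexSpace E]

/-- two norms whose sum nearly attains the parallelogram bound are nearly equal -/
theorem near_equal {x k m e : ℝ} (hx : 0 ≤ x) (hk : 0 ≤ k) (he : 0 < e) (he4 : e ≤ 1 / 4)
    (hm : 0 ≤ m) (hle : m ≤ x + k) (hfar : (2 - e ^ 2 / 64) * (x ^ 2 + k ^ 2) < m ^ 2) :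
    0 < max x k ∧ (1 - e / 4) * max x k ≤ x ∧ (1 - e / 4) * max x k ≤ k ∧
      (2 - e) * max x k < m := by
  set R := max x k
  have hxR : x ≤ R := le_max_left _ _
  have hkR : k ≤ R := le_max_right _ _
  have hm2 : m ^ 2 ≤ (x + k) ^ 2 := pow_le_pow_left₀ hm hle 2
  have hsq : x ^ 2 + k ^ 2 ≤ 2 * R ^ 2 := by nlinarith
  have hR : 0 < R := by
    by_contra h0
    push Not at h0
    have h3 : x = 0 := by linarith
    have h4 : k = 0 := by linarith
    rw [h3, h4] at hfar hm2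
    linarith
  have h5 : e ^ 2 / 64 * (x ^ 2 + k ^ 2) ≤ e ^ 2 / 64 * (2 * R ^ 2) :=
    mul_le_mul_of_nonneg_left hsq (by positivity)
  have hclose : |x - k| ≤ e / 4 * R := abs_le_of_sq_le_sq (by nlinarith) (by positivity)
  obtain ⟨hcl1, hcl2⟩ := abs_le.mp hclose
  have hboth : (1 - e / 4) * R ≤ x ∧ (1 - e / 4) * R ≤ k := by
    rcases max_choice x k with h1 | h1 <;> constructor <;> linarith [show R = max x k from rfl]
  refine ⟨hR, hboth.1, hboth.2, lt_of_pow_lt_pow_left₀ 2 hm ?_⟩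
  have h0 : 0 ≤ (1 - e / 4) * R := by nlinarith
  have h6 := pow_le_pow_left₀ h0 hboth.1 2
  have h7 := pow_le_pow_left₀ h0 hboth.2 2
  have h8 : (2 - e) ^ 2 ≤ (2 - e ^ 2 / 64) * (2 * (1 - e / 4) ^ 2) := by
    have a2 : e ^ 2 ≤ e / 4 := by nlinarith
    have a4 : e ^ 4 ≤ e ^ 2 := pow_le_pow_of_le_one he.le (by linarith) (by norm_num)
    have a3 : 0 ≤ e ^ 3 := by positivity
    linarith
  have h9 := mul_le_mul_of_nonneg_right h8 (sq_nonneg R)
  have h10 : (2 - e ^ 2 / 64) * (2 * ((1 - e / 4) * R) ^ 2) ≤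
      (2 - e ^ 2 / 64) * (x ^ 2 + k ^ 2) :=
    mul_le_mul_of_nonneg_left (by linarith) (by nlinarith)
  linarith

/-- the parallelogram inequality of a uniformly convex space, up to a linear term -/
theorem sq_le :
    ∃ c : ℝ, 0 < c ∧ c ≤ 1 ∧ ∃ K : ℝ, ∀ x k : E,
      ‖x + k‖ ^ 2 ≤ (2 - c) * (‖x‖ ^ 2 + ‖k‖ ^ 2) + K * ‖x‖ * J x k := by
  obtain ⟨δ, hδ, H⟩ := exists_forall_closed_ball_dist_add_le_two_sub E
    (show (0 : ℝ) < 1 / 8 by norm_num)
  set e : ℝ := min δ (1 / 4)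
  have he : 0 < e := lt_min hδ (by norm_num)
  have he4 : e ≤ 1 / 4 := min_le_right _ _
  have heδ : e ≤ δ := min_le_left _ _
  have hc₀ : 0 < e ^ 2 / 64 := by positivity
  have hc₁ : e ^ 2 / 64 ≤ 1 / 256 := by nlinarith
  refine ⟨e ^ 2 / 64 / 8, by positivity, by linarith, e ^ 2 / 64, fun x k => ?_⟩
  have hx0 := norm_nonneg x
  have hk0 := norm_nonneg k
  by_cases hfar : ‖x + k‖ ^ 2 ≤ (2 - e ^ 2 / 64) * (‖x‖ ^ 2 + ‖k‖ ^ 2)
  · have h1 := mul_le_mul_of_nonneg_left (neg_le_J x k) (mul_nonneg hc₀.le hx0)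
    have h2 := mul_nonneg hc₀.le (sq_nonneg (‖x‖ - ‖k‖))
    have h3 : 0 ≤ e ^ 2 / 64 * (‖x‖ ^ 2 + ‖k‖ ^ 2) := by positivity
    linarith
  push Not at hfar
  obtain ⟨hR, hlx, hlk, hbig⟩ :=
    near_equal hx0 hk0 he he4 (norm_nonneg _) (norm_add_le x k) hfar
  set R := max ‖x‖ ‖k‖
  have hxR : ‖x‖ ≤ R := le_max_left _ _
  have hkR : ‖k‖ ≤ R := le_max_right _ _
  have hi : 0 ≤ R⁻¹ := inv_nonneg.mpr hR.le
  have hnear : ‖x - k‖ ≤ R / 8 := by
    by_contra hcon
    push Not at hcon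
    have h7 := H (x := R⁻¹ • x) (by
        rw [norm_smul_of_nonneg hi, inv_mul_le_iff₀ hR]; linarith)
      (y := R⁻¹ • k) (by rw [norm_smul_of_nonneg hi, inv_mul_le_iff₀ hR]; linarith) (by
        rw [← smul_sub, norm_smul_of_nonneg hi, le_inv_mul_iff₀ hR]; linarith)
    rw [← smul_add, norm_smul_of_nonneg hi, inv_mul_le_iff₀ hR] at h7
    linarith [mul_le_mul_of_nonneg_right heδ hR.le]
  have h8 := J_le x (x - k)
  rw [map_sub, J_self] at h8
  have h9 : R / 2 ≤ J x k := by linarith [mul_le_mul_of_nonneg_right he4 hR.le]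
  have h10 : R / 2 * (R / 2) ≤ ‖x‖ * J x k :=
    mul_le_mul (by linarith [mul_le_mul_of_nonneg_right he4 hR.le]) h9 (by linarith) hx0
  have h11 : ‖x + k‖ ^ 2 ≤ (‖x‖ + ‖k‖) ^ 2 := pow_le_pow_left₀ (norm_nonneg _) (norm_add_le x k) 2
  have h12 : ‖x‖ ^ 2 + ‖k‖ ^ 2 ≤ 2 * R ^ 2 := by nlinarith
  have h13 := mul_le_mul_of_nonneg_left h12 hc₀.le
  have h14 := mul_le_mul_of_nonneg_left h10 hc₀.le
  linarith [sq_nonneg (‖x‖ - ‖k‖)]

/-- the variance of a walk of `2 ^ k` steps grows slower than `4 ^ k` -/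
theorem variance :
    ∃ q : ℝ, 2 ≤ q ∧ q < 4 ∧ ∀ (b : E → ℕ → E) (h : ℝ), Field b h → ∀ (k : ℕ) (x₀ : E),
      (step b)^[2 ^ k] (fun y => ‖y - x₀‖ ^ 2) x₀ ≤ q ^ k * h ^ 2 := by
  obtain ⟨c, hc, hc1, K, H⟩ := sq_le (E := E)
  refine ⟨2 * (2 - c), by linarith, by linarith, fun b h hb k => ?_⟩
  induction k with
  | zero =>
    intro x₀
    simp only [pow_zero, Function.iterate_one, one_mul]
    refine (abs_le.mp (avg_abs_le fun n => ?_)).2
    show |‖x₀ + b x₀ n - x₀‖ ^ 2| ≤ _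
    rw [add_sub_cancel_left, abs_of_nonneg (sq_nonneg _)]
    exact pow_le_pow_left₀ (norm_nonneg _) (hb.bound _ _) 2
  | succ k ih =>
    intro x₀
    set V := (2 * (2 - c)) ^ k * h ^ 2
    set m := 2 ^ k
    rw [show 2 ^ (k + 1) = m + m by rw [pow_succ]; omega, Function.iterate_add_apply]
    have h2c : 0 ≤ 2 - c := by linarith
    have key : ∀ y, (step b)^[m] (fun z => ‖z - x₀‖ ^ 2) y ≤
        (2 - c) * ‖y - x₀‖ ^ 2 + (2 - c) * V := by
      intro y
      set φ : StrongDual ℝ E := (K * ‖y - x₀‖) • J (y - x₀)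
      set r := (2 - c) * ‖y - x₀‖ ^ 2 - φ y
      have hbd := lb_lin (lb_dist y) (lb_lin (lb_functional φ) (lb_const r) 1 1) (2 - c) 1
      have h1 := hb.iter_mono (lb_dist x₀) hbd (fun z => ?_) m y
      · rw [hb.iter_lin (lb_dist y) (lb_lin (lb_functional φ) (lb_const r) 1 1) (2 - c) 1] at h1
        simp only [one_mul] at h1
        rw [hb.iter_functional φ r m y] at h1
        refine h1.trans ?_
        have := mul_le_mul_of_nonneg_left (ih y) h2c
        simp only [r]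
        linarith
      · have h2 := H (y - x₀) (z - y)
        rw [show y - x₀ + (z - y) = z - x₀ by abel] at h2
        refine h2.trans (le_of_eq ?_)
        simp only [one_mul, r, φ, smul_apply, smul_eq_mul, map_sub]
        ring
    have hR := lb_lin (lb_dist x₀) (lb_const (E := E) V) (2 - c) (2 - c)
    refine (hb.iter_mono (hb.lb_iter (lb_dist x₀) m) hR key m x₀).trans ?_
    rw [hb.iter_lin (lb_dist x₀) (lb_const V) (2 - c) (2 - c), hb.iter_const]
    have := mul_le_mul_of_nonneg_left (ih x₀) h2c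
    rw [pow_succ]
    simp only [V]
    linarith

/-- a ball cannot consist of points from which steps of length `h` raise the norm fast -/
theorem no_steps : ∃ p : ℝ, 1 < p ∧ ∀ a : ℝ, 0 < a → a ≤ 1 → ∃ C : ℝ, 0 < C ∧
    ∀ (x₀ : E) (h g : ℝ), 0 < h → h ≤ a / 2 → 0 ≤ g →
      (∀ x : E, ‖x - x₀‖ < a → ∃ s : ℕ → E, (∀ n, ‖s n‖ ≤ h) ∧
        (∀ φ : StrongDual ℝ E, avg (fun n => φ (s n)) = 0) ∧
        ‖x‖ + g ≤ avg fun n => ‖x + s n‖) → g ≤ C * h ^ p := by
  classical
  obtain ⟨q, hq2, hq4, hvar⟩ := variance (E := E)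
  have hq1 : 1 < q := by linarith
  have hlog : 0 < Real.log q := Real.log_pos hq1
  set s := Real.log 2 / Real.log q
  have hs : 1 / 2 < s := by
    rw [lt_div_iff₀ hlog]
    have h1 : Real.log q < Real.log 4 := Real.log_lt_log (by linarith) hq4
    have h2 : Real.log 4 = Real.log 2 + Real.log 2 := by
      rw [← Real.log_mul two_ne_zero two_ne_zero]; norm_num
    linarith
  have hs0 : 0 ≤ s := by linarith
  have h2s : q ^ s = 2 := by
    rw [Real.rpow_def_of_pos (by linarith), mul_comm, div_mul_cancel₀ _ hlog.ne',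
      Real.exp_log two_pos]
  refine ⟨2 * s, by linarith, fun a ha ha1 => ⟨4 * (2 * q / a ^ 2) ^ s, by positivity, ?_⟩⟩
  intro x₀ h g hh hha hg hstep
  choose! st hst1 hst2 hst3 using hstep
  let b : E → ℕ → E := fun x n => if ‖x - x₀‖ < a then st x n else 0
  have hb : Field b h := by
    refine ⟨fun x n => ?_, fun x φ => ?_⟩ <;> by_cases hx : ‖x - x₀‖ < a
    · simp only [b, if_pos hx]; exact hst1 x hx n
    · simp only [b, if_neg hx, norm_zero]; exact hh.le
    · simp only [b, if_pos hx]; exact hst2 x hx φ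
    · simp only [b, if_neg hx, map_zero]; exact avg_const 0
  set A := a ^ 2 / (2 * h ^ 2)
  have hA : 1 ≤ A := by
    rw [le_div_iff₀ (by positivity)]
    nlinarith
  obtain ⟨k, hk1, hk2⟩ := exists_nat_pow_near hA hq1
  have hV : q ^ k * h ^ 2 ≤ a ^ 2 / 2 := by
    rw [le_div_iff₀ (by positivity)] at hk1
    linarith
  -- every step gains
  have hgain : ∀ x, ‖x‖ + (g + -(g / a ^ 2) * ‖x - x₀‖ ^ 2) ≤ step b (fun y => ‖y‖) x := by
    intro x
    by_cases hx : ‖x - x₀‖ < a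
    · have h1 : step b (fun y => ‖y‖) x = avg fun n => ‖x + st x n‖ := by
        simp only [step, b, if_pos hx]
      rw [h1]
      have : 0 ≤ g / a ^ 2 * ‖x - x₀‖ ^ 2 := by positivity
      linarith [hst3 x hx]
    · have h1 : step b (fun y => ‖y‖) x = ‖x‖ := by
        simp only [step, b, if_neg hx, add_zero, avg_const]
      rw [h1]
      push Not at hx
      have h2 : g / a ^ 2 * a ^ 2 ≤ g / a ^ 2 * ‖x - x₀‖ ^ 2 :=
        mul_le_mul_of_nonneg_left (pow_le_pow_left₀ ha.le hx 2) (by positivity)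
      rw [div_mul_cancel₀ g (by positivity)] at h2
      linarith
  set N := 2 ^ k
  have hD : ∀ i ≤ N, (step b)^[i] (fun y => ‖y - x₀‖ ^ 2) x₀ ≤ a ^ 2 / 2 := fun i hi =>
    ((hb.dist_mono x₀ x₀ hi).trans (hvar b h hb k x₀)).trans hV
  have hup : ∀ i ≤ N, ‖x₀‖ + i * (g / 2) ≤ (step b)^[i] (fun y => ‖y‖) x₀ := by
    intro i hi
    induction i with
    | zero => simp
    | succ i ih =>
      rw [Function.iterate_succ_apply]
      have h1 := lb_lin (lb_const (E := E) g) (lb_dist x₀) 1 (-(g / a ^ 2))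
      have h2 := hb.iter_mono (lb_lin lb_norm h1 1 1) (hb.lb_step lb_norm)
        (fun x => by simpa using hgain x) i x₀
      refine le_trans ?_ h2
      rw [hb.iter_lin lb_norm h1, hb.iter_lin (lb_const g) (lb_dist x₀), hb.iter_const]
      have h3 : g / a ^ 2 * (step b)^[i] (fun y => ‖y - x₀‖ ^ 2) x₀ ≤ g / a ^ 2 * (a ^ 2 / 2) :=
        mul_le_mul_of_nonneg_left (hD i (by omega)) (by positivity)
      rw [show g / a ^ 2 * (a ^ 2 / 2) = g / 2 by field_simp] at h3
      have h4 := ih (by omega)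
      push_cast
      linarith
  have htop : (step b)^[N] (fun y => ‖y‖) x₀ ≤ ‖x₀‖ + 2 := by
    have h1 := lb_lin (lb_const (E := E) (‖x₀‖ + 1)) (lb_dist x₀) 1 1
    refine (hb.iter_mono lb_norm h1 (fun x => ?_) N x₀).trans ?_
    · have := norm_le_norm_add_norm_sub' x x₀
      nlinarith [sq_nonneg (‖x - x₀‖ - 1), norm_nonneg (x - x₀)]
    · rw [hb.iter_lin (lb_const _) (lb_dist x₀), hb.iter_const]
      nlinarith [hD N le_rfl]
  have h5 := hup N le_rfl
  -- the number of steps is large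
  have hN : (A / q) ^ s ≤ (N : ℝ) := by
    have h1 : A / q ≤ q ^ k := by
      rw [div_le_iff₀ (by linarith), ← pow_succ]; exact hk2.le
    refine (Real.rpow_le_rpow (by positivity) h1 hs0).trans (le_of_eq ?_)
    rw [← Real.rpow_natCast q k, ← Real.rpow_mul (by linarith), mul_comm,
      Real.rpow_mul (by linarith), h2s, Real.rpow_natCast]
    simp [N]
  have hAq : 0 < A / q := by positivity
  have hone : (A / q) ^ s * ((2 * q / a ^ 2) ^ s * h ^ (2 * s)) = 1 := by
    have e1 : h ^ (2 * s) = (h ^ 2) ^ s := by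
      rw [Real.rpow_mul hh.le]; norm_num
    have e2 : A / q * (2 * q / a ^ 2 * h ^ 2) = 1 := by
      simp only [A]
      field_simp
    rw [e1, ← Real.mul_rpow (by positivity) (by positivity),
      ← Real.mul_rpow hAq.le (by positivity), e2, Real.one_rpow]
  have hinv : 4 * (2 * q / a ^ 2) ^ s * h ^ (2 * s) = 4 / (A / q) ^ s := by
    rw [eq_div_iff (Real.rpow_pos_of_pos hAq s).ne']
    linear_combination (4 : ℝ) * hone
  rw [hinv, le_div_iff₀ (Real.rpow_pos_of_pos hAq s)]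
  have := mul_le_mul_of_nonneg_left hN hg
  nlinarith

end Convex

end Vale.Agent.P084.UC
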