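import Vale.Agent.P084.UC.Pins
import Vale.Agent.P084.UC.Walk
import Vale.Agent.P084.Smooth.Scale

/-!
P084 for uniformly convex spaces, blocks A and B: at arbitrarily small scales good directions are
dense in both spheres.
-/

open Filter Topology Metric

namespace Vale.Agent.P084.UC

open Vale.Agent.P084.Smooth

universe u v

variable {E : Type u} [NormedAddCommGroup E] [NormedSpace ℝ E]

/-- a direction that is not flat gives a two-point step -/
theorem flat_step {x h : E} (hx : x ≠ 0) {b' : ℝ}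
    (hh : 2 + b' < ‖‖x‖⁻¹ • x + h‖ + ‖‖x‖⁻¹ • x - h‖) :
    ∃ s : ℕ → E, (∀ n, ‖s n‖ ≤ ‖x‖ * ‖h‖) ∧
      (∀ φ : StrongDual ℝ E, avg (fun n => φ (s n)) = 0) ∧
      ‖x‖ + ‖x‖ * (b' / 2) ≤ avg fun n => ‖x + s n‖ := by
  have hp : 0 < ‖x‖ := norm_pos_iff.mpr hx
  refine ⟨fun n => if n % 2 = 0 then ‖x‖ • h else -(‖x‖ • h), fun n => ?_, fun φ => ?_, ?_⟩
  · dsimp only
    by_cases hn : n % 2 = 0
    · rw [if_pos hn, norm_smul_of_nonneg hp.le]
    · rw [if_neg hn, norm_neg, norm_smul_of_nonneg hp.le]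
  · simp only [avg, Nat.mul_mod_right, Nat.mul_add_mod, if_true, Nat.one_mod, one_ne_zero,
      if_false, map_neg, ulim_eq tendsto_const_nhds]
    ring
  · simp only [avg, Nat.mul_mod_right, Nat.mul_add_mod, if_true, Nat.one_mod, one_ne_zero,
      if_false, ulim_eq tendsto_const_nhds]
    have e1 : x + ‖x‖ • h = ‖x‖ • (‖x‖⁻¹ • x + h) := by
      rw [smul_add, smul_inv_smul₀ hp.ne']
    have e2 : x + -(‖x‖ • h) = ‖x‖ • (‖x‖⁻¹ • x - h) := by
      rw [smul_sub, smul_inv_smul₀ hp.ne', sub_eq_add_neg]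
    rw [e1, e2, norm_smul_of_nonneg hp.le, norm_smul_of_nonneg hp.le]
    linarith [mul_le_mul_of_nonneg_left hh.le hp.le]

/-- a direction with a large gain gives a weakly null step -/
theorem gain_step {x : E} {ν : ℕ → E} (hx : x ≠ 0) {ρ b : ℝ} (hρ : 0 < ρ) (hb : Bdd ν)
    (hw : WL ν 0) (hr : rad ν ≤ ρ) (hg : 1 + b < ulim fun n => ‖‖x‖⁻¹ • x + ν n‖) :
    ∃ s : ℕ → E, (∀ n, ‖s n‖ ≤ ‖x‖ * (2 * ρ)) ∧
      (∀ φ : StrongDual ℝ E, avg (fun n => φ (s n)) = 0) ∧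
      ‖x‖ + ‖x‖ * b ≤ avg fun n => ‖x + s n‖ := by
  classical
  have hp : 0 < ‖x‖ := norm_pos_iff.mpr hx
  let μ : ℕ → E := fun n => if ‖ν n‖ ≤ 2 * ρ then ν n else 0
  have hev : ∀ᶠ n in (U0 : Filter ℕ), μ n = ν n := by
    filter_upwards [hb.tendsto_norm.eventually (eventually_le_nhds
      ((null_norm_le hb hw hr).trans_lt (show ρ < 2 * ρ by linarith)))] with n hn
    exact if_pos hn
  have h0 : ∀ n, (2 * n) / 2 = n ∧ (2 * n + 1) / 2 = n := fun n => by omega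
  refine ⟨fun n => ‖x‖ • μ (n / 2), fun n => ?_, fun φ => ?_, ?_⟩
  · rw [norm_smul_of_nonneg hp.le]
    refine mul_le_mul_of_nonneg_left ?_ hp.le
    simp only [μ]
    split
    · assumption
    · rw [norm_zero]; linarith
  · have h1 : Tendsto (fun n => φ (‖x‖ • μ n)) U0 (𝓝 0) := by
      have h2 : Tendsto (fun n => ‖x‖ * φ (ν n)) U0 (𝓝 0) := by
        simpa using (hw φ).const_mul ‖x‖
      refine h2.congr' ?_
      filter_upwards [hev] with n hn
      rw [hn, map_smul, smul_eq_mul]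
    simp only [avg, (h0 _).1, (h0 _).2, ulim_eq h1, add_zero, zero_div]
  · have h1 : Tendsto (fun n => ‖x + ‖x‖ • μ n‖) U0
        (𝓝 (‖x‖ * ulim fun n => ‖‖x‖⁻¹ • x + ν n‖)) := by
      refine ((hb.const_add _).tendsto_norm.const_mul ‖x‖).congr' ?_
      filter_upwards [hev] with n hn
      rw [hn, ← norm_smul_of_nonneg hp.le, smul_add, smul_inv_smul₀ hp.ne']
    simp only [avg, (h0 _).1, (h0 _).2, ulim_eq h1]
    linarith [mul_le_mul_of_nonneg_left hg.le hp.le]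

theorem dir_near {x d₀ : E} (hd : ‖d₀‖ = 1) {a : ℝ} (ha : a ≤ 1 / 2) (hx : ‖x - d₀‖ < a) :
    1 / 2 ≤ ‖x‖ ∧ ‖x‖ ≤ 3 / 2 ∧ x ≠ 0 ∧ ‖‖x‖⁻¹ • x‖ = 1 ∧ ‖‖x‖⁻¹ • x - d₀‖ ≤ 2 * a := by
  obtain ⟨h1, h2⟩ := abs_le.mp (abs_norm_sub_norm_le x d₀)
  rw [hd] at h1 h2
  have hp : 0 < ‖x‖ := by linarith
  have hn : ‖‖x‖⁻¹ • x‖ = 1 := by
    rw [norm_smul_of_nonneg (inv_nonneg.mpr hp.le)]; exact inv_mul_cancel₀ hp.ne'
  refine ⟨by linarith, by linarith, norm_pos_iff.mp hp, hn, ?_⟩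
  refine (norm_sub_le_norm_sub_add_norm_sub _ x _).trans ?_
  have e : ‖x‖⁻¹ • x - x = (1 - ‖x‖) • (‖x‖⁻¹ • x) := by
    rw [sub_smul, one_smul, smul_inv_smul₀ hp.ne']
  rw [e, norm_smul, hn, mul_one, Real.norm_eq_abs]
  have : |1 - ‖x‖| ≤ a := abs_le.mpr ⟨by linarith, by linarith⟩
  linarith

/-- when good directions fail to be dense, each step gains -/
theorem not_dense [UniformConvexSpace E] :
    ∃ p : ℝ, 1 < p ∧ ∀ a : ℝ, 0 < a → ∃ C : ℝ, 0 < C ∧ ∀ ρ t b b' : ℝ, 0 < ρ → 0 ≤ t →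
      0 ≤ b → 0 ≤ b' → ¬ GoodDense E a ρ t b b' →
        ((∀ d : E, ‖d‖ = 1 → ∀ ν : ℕ → E, Bdd ν → WL ν 0 → rad ν ≤ ρ →
            (ulim fun n => ‖d + ν n‖) ≤ 1 + b) → t ≤ C⁻¹ → b' ≤ C * t ^ p) ∧
        (t + ρ ≤ C⁻¹ → min b b' ≤ C * (t + ρ) ^ p) := by
  obtain ⟨p, hp, H⟩ := no_steps (E := E)
  refine ⟨p, hp, fun a ha => ?_⟩
  set a' := min (a / 2) (1 / 2)
  have ha' : 0 < a' := lt_min (half_pos ha) one_half_pos
  have ha2 : a' ≤ 1 / 2 := min_le_right _ _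
  obtain ⟨C, hC, HC⟩ := H a' ha' (ha2.trans (by norm_num))
  set D := max (4 * C * (3 : ℝ) ^ p) (8 / a')
  have hD : 0 < D := lt_of_lt_of_le (by positivity) (le_max_right _ _)
  refine ⟨D, hD, fun ρ t b b' hρ ht hb hb' hnd => ?_⟩
  rw [GoodDense] at hnd
  push Not at hnd
  obtain ⟨d₀, hd₀, hbad⟩ := hnd
  have hsmall : ∀ u : ℝ, 0 ≤ u → u ≤ D⁻¹ → 3 * u ≤ a' / 2 := by
    intro u hu huD
    have h1 : u ≤ (8 / a')⁻¹ := huD.trans (inv_anti₀ (by positivity) (le_max_right _ _))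
    rw [inv_div] at h1
    linarith
  have hfinal : ∀ u g : ℝ, 0 ≤ u → g / 4 ≤ C * (3 * u) ^ p → g ≤ D * u ^ p := by
    intro u g hu hgu
    rw [Real.mul_rpow (by norm_num) hu] at hgu
    have h2 := mul_le_mul_of_nonneg_right (le_max_left (4 * C * (3 : ℝ) ^ p) (8 / a'))
      (Real.rpow_nonneg hu p)
    linarith
  have hd : ∀ x, ‖x - d₀‖ < a' → 1 / 2 ≤ ‖x‖ ∧ ‖x‖ ≤ 3 / 2 ∧ x ≠ 0 ∧
      ¬ Good (‖x‖⁻¹ • x) ρ t b b' ∧ ‖‖x‖⁻¹ • x‖ = 1 := fun x hx => by
    obtain ⟨h1, h2, h3, h4, h5⟩ := dir_near hd₀ ha2 hx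
    exact ⟨h1, h2, h3, hbad _ (h5.trans (by linarith [min_le_left (a / 2) (1 / 2)])), h4⟩
  constructor
  · intro hgain htD
    rcases ht.eq_or_lt with ht0 | ht0
    · -- without length there is no failure of flatness
      exfalso
      subst ht0
      refine hbad d₀ (by simpa using ha.le) ⟨hd₀, hgain d₀ hd₀, fun h hh => ?_⟩
      rw [norm_le_zero_iff.mp hh, add_zero, sub_zero, hd₀]
      linarith
    refine hfinal t b' ht ?_
    refine HC d₀ (3 * t) (b' / 4) (by linarith) (hsmall t ht htD) (by linarith) fun x hx => ?_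
    obtain ⟨h1, h2, h3, h4, h5⟩ := hd x hx
    obtain ⟨h, hh, hh'⟩ : ∃ h : E, ‖h‖ ≤ t ∧
        2 + b' < ‖‖x‖⁻¹ • x + h‖ + ‖‖x‖⁻¹ • x - h‖ := by
      by_contra hcon
      push Not at hcon
      exact h4 ⟨h5, hgain _ h5, hcon⟩
    obtain ⟨s, hs1, hs2, hs3⟩ := flat_step h3 hh'
    refine ⟨s, fun n => (hs1 n).trans ?_, hs2, le_trans ?_ hs3⟩
    · exact (mul_le_mul h2 hh (norm_nonneg _) (by norm_num)).trans (by linarith)
    · linarith [mul_le_mul_of_nonneg_right h1 (by linarith : 0 ≤ b' / 2)]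
  · intro htD
    refine hfinal (t + ρ) (min b b') (by linarith) ?_
    refine HC d₀ (3 * (t + ρ)) (min b b' / 4) (by linarith) (hsmall _ (by linarith) htD)
      (div_nonneg (le_min hb hb') (by norm_num)) fun x hx => ?_
    obtain ⟨h1, h2, h3, h4, h5⟩ := hd x hx
    by_cases hg : ∀ ν : ℕ → E, Bdd ν → WL ν 0 → rad ν ≤ ρ →
        (ulim fun n => ‖‖x‖⁻¹ • x + ν n‖) ≤ 1 + b
    · obtain ⟨h, hh, hh'⟩ : ∃ h : E, ‖h‖ ≤ t ∧
          2 + b' < ‖‖x‖⁻¹ • x + h‖ + ‖‖x‖⁻¹ • x - h‖ := by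
        by_contra hcon
        push Not at hcon
        exact h4 ⟨h5, hg, hcon⟩
      obtain ⟨s, hs1, hs2, hs3⟩ := flat_step h3 hh'
      refine ⟨s, fun n => (hs1 n).trans ?_, hs2, le_trans ?_ hs3⟩
      · exact (mul_le_mul h2 hh (norm_nonneg _) (by norm_num)).trans (by linarith)
      · linarith [mul_le_mul_of_nonneg_right h1 (by linarith : 0 ≤ b' / 2), min_le_right b b']
    · push Not at hg
      obtain ⟨ν, hν, hw, hr, hg'⟩ := hg
      obtain ⟨s, hs1, hs2, hs3⟩ := gain_step h3 hρ hν hw hr hg'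
      refine ⟨s, fun n => (hs1 n).trans ?_, hs2, le_trans ?_ hs3⟩
      · exact (mul_le_mul_of_nonneg_right h2 (by linarith : 0 ≤ 2 * ρ)).trans (by linarith)
      · linarith [mul_le_mul_of_nonneg_right h1 hb, min_le_left b b']

theorem rpow_small {p B : ℝ} (hp : 0 < p) (hB : 0 < B) :
    ∃ u₀ : ℝ, 0 < u₀ ∧ ∀ u : ℝ, 0 < u → u ≤ u₀ → u ^ p < B := by
  refine ⟨(B / 2) ^ (1 / p), by positivity, fun u hu hu0 => ?_⟩
  have h1 := Real.rpow_le_rpow hu.le hu0 hp.le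
  rw [← Real.rpow_mul (by positivity), one_div_mul_cancel hp.ne', Real.rpow_one] at h1
  linarith

theorem densePin (X : Type u) [NormedAddCommGroup X] [NormedSpace ℝ X] : DensePin.{u, v} X := by
  classical
  intro Y _ _ _ _ _ _ hinf δ hδ
  obtain ⟨pX, hpX, HX⟩ := not_dense (E := X)
  obtain ⟨pY, hpY, HY⟩ := not_dense (E := Y)
  set p := min pX pY
  have hp : 1 < p := lt_min hpX hpY
  set q := (1 + p) / 2 with hqdef
  have hq : 1 < q := by linarith
  have hqp : q < p := by linarith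
  set e := min (1 / 2) (δ ^ (1 / (q - 1)))
  have he : 0 < e := lt_min one_half_pos (Real.rpow_pos_of_pos hδ _)
  have heq : e ^ q ≤ δ * e := by
    rw [show q = (q - 1) + 1 by ring, Real.rpow_add_one he.ne']
    refine mul_le_mul_of_nonneg_right ?_ he.le
    refine (Real.rpow_le_rpow he.le (min_le_right _ _) (by linarith)).trans (le_of_eq ?_)
    rw [← Real.rpow_mul hδ.le, one_div_mul_cancel (by linarith), Real.rpow_one]
  refine ⟨e, he, min_le_left _ _, fun K a hK ha r₀ hr₀ => ?_⟩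
  have he2 : e ≤ 1 / 2 := min_le_left _ _
  obtain ⟨CX, hCX, hX⟩ := HX a ha
  obtain ⟨CY, hCY, hY⟩ := HY a ha
  set C := max CX CY
  have hC : 0 < C := lt_of_lt_of_le hCX (le_max_left _ _)
  have hCi : C⁻¹ ≤ CX⁻¹ ∧ C⁻¹ ≤ CY⁻¹ :=
    ⟨inv_anti₀ hCX (le_max_left _ _), inv_anti₀ hCY (le_max_right _ _)⟩
  let G : ℝ → ℝ := fun r => max (gain X r) (gain Y r)
  have hG : ∀ r, 0 < r → 0 < G r ∧ G r ≤ r := fun r hr =>
    ⟨lt_of_lt_of_le (gain_pos hinf hr) (le_max_left _ _),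
      max_le (gain_le_self hr.le) (gain_le_self hr.le)⟩
  have hmono : ∀ P c u : ℝ, p ≤ P → c ≤ C → 0 ≤ c → 0 < u → u ≤ 1 → c * u ^ P ≤ C * u ^ p :=
    fun P c u hP hc _ hu hu1 =>
      mul_le_mul hc (Real.rpow_le_rpow_of_exponent_ge hu hu1 hP) (Real.rpow_nonneg hu.le _) hC.le
  by_cases hflat : ∀ r₁ : ℝ, 0 < r₁ → ∃ r, 0 < r ∧ r ≤ r₁ ∧ G (e * r) ≤ δ * e * G r
  · -- the gain collapses: only flatness is at stake
    obtain ⟨u₀, hu₀, Hu⟩ := rpow_small (show 0 < p - 1 by linarith)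
      (show 0 < δ / (C * K ^ p) by positivity)
    obtain ⟨r, hr, hr1, hgr⟩ := hflat (min r₀ (min u₀ (min 1 C⁻¹ / K)))
      (lt_min hr₀ (lt_min hu₀ (div_pos (lt_min one_pos (inv_pos.mpr hC)) hK)))
    obtain ⟨hr0, hr1', hr2⟩ : r ≤ r₀ ∧ r ≤ u₀ ∧ r ≤ min 1 C⁻¹ / K :=
      ⟨hr1.trans (min_le_left _ _), hr1.trans ((min_le_right _ _).trans (min_le_left _ _)),
        hr1.trans ((min_le_right _ _).trans (min_le_right _ _))⟩
    obtain ⟨hGp, hGr⟩ := hG r hr
    have ht : K * G r ≤ min 1 C⁻¹ := by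
      rw [le_div_iff₀ hK] at hr2
      linarith [mul_le_mul_of_nonneg_left hGr hK.le]
    have hbad : ∀ P c : ℝ, p ≤ P → c ≤ C → 0 ≤ c → δ * G r ≤ c * (K * G r) ^ P → False := by
      intro P c hP hc hc0 h1
      have h2 := h1.trans (hmono P c _ hP hc hc0 (mul_pos hK hGp) (ht.trans (min_le_left _ _)))
      have h3 := Hu (G r) hGp (hGr.trans hr1')
      rw [lt_div_iff₀ (by positivity)] at h3
      rw [Real.mul_rpow hK.le hGp.le] at h2
      have h4 : (G r) ^ p = (G r) ^ (p - 1) * G r := by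
        rw [← Real.rpow_add_one hGp.ne', sub_add_cancel]
      rw [h4] at h2
      linarith [mul_lt_mul_of_pos_right h3 hGp]
    refine ⟨r, G r, hr, hr0, hGp, hGr, rfl, ?_, ?_⟩
    · by_contra hnd
      refine hbad pX CX (min_le_left _ _) (le_max_left _ _) hCX.le ((hX _ _ _ _ (mul_pos he hr)
        (mul_pos hK hGp).le (by positivity) (by positivity) hnd).1 (fun d hd ν hν hw hrν => ?_) ?_)
      · exact (ulim_le_gain hd hν hw hrν).trans
          (by linarith [le_max_left (gain X (e * r)) (gain Y (e * r))])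
      · exact ht.trans ((min_le_right _ _).trans hCi.1)
    · by_contra hnd
      refine hbad pY CY (min_le_right _ _) (le_max_right _ _) hCY.le ((hY _ _ _ _ (mul_pos he hr)
        (mul_pos hK hGp).le (by positivity) (by positivity) hnd).1 (fun d hd ν hν hw hrν => ?_) ?_)
      · exact (ulim_le_gain hd hν hw hrν).trans
          (by linarith [le_max_right (gain X (e * r)) (gain Y (e * r))])
      · exact ht.trans ((min_le_right _ _).trans hCi.2)
  · -- the gain decays at most like a power `q < p`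
    push Not at hflat
    obtain ⟨r₁, hr₁, hdec⟩ := hflat
    have hpow : ∀ j : ℕ, 0 < e ^ j * r₁ ∧ G r₁ / r₁ ^ q * (e ^ j * r₁) ^ q ≤ G (e ^ j * r₁) := by
      intro j
      induction j with
      | zero =>
        rw [pow_zero, one_mul, div_mul_cancel₀ _ (Real.rpow_pos_of_pos hr₁ q).ne']
        exact ⟨hr₁, le_rfl⟩
      | succ j ih =>
        obtain ⟨hpos, hih⟩ := ih
        have hle : e ^ j * r₁ ≤ r₁ :=
          mul_le_of_le_one_left hr₁.le (pow_le_one₀ he.le (he2.trans (by norm_num)))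
        have h1 := hdec _ hpos hle
        have h0 : 0 ≤ G r₁ / r₁ ^ q * (e ^ j * r₁) ^ q :=
          mul_nonneg (div_nonneg (hG r₁ hr₁).1.le (Real.rpow_nonneg hr₁.le _))
            (Real.rpow_nonneg hpos.le _)
        rw [pow_succ, mul_comm (e ^ j) e, mul_assoc]
        refine ⟨mul_pos he hpos, ?_⟩
        rw [Real.mul_rpow he.le hpos.le]
        have h2 := mul_le_mul heq hih h0 (by positivity)
        linarith
    set B := G r₁ / r₁ ^ q
    have hB : 0 < B := div_pos (hG r₁ hr₁).1 (Real.rpow_pos_of_pos hr₁ q)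
    have hde : 0 < min (δ * e) δ := lt_min (mul_pos hδ he) hδ
    obtain ⟨u₀, hu₀, Hu⟩ := rpow_small (show 0 < p - q by linarith)
      (show 0 < min (δ * e) δ * B / (C * (K + 1) ^ p) by positivity)
    set v := min r₀ (min u₀ (min 1 C⁻¹ / (K + 1)))
    have hv : 0 < v :=
      lt_min hr₀ (lt_min hu₀ (div_pos (lt_min one_pos (inv_pos.mpr hC)) (by linarith)))
    obtain ⟨j, hj⟩ := exists_pow_lt_of_lt_one (show 0 < v / r₁ by positivity)
      (show e < 1 by linarith)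
    obtain ⟨hr, hGlow⟩ := hpow j
    set r := e ^ j * r₁
    have hrv : r ≤ v := by
      rw [lt_div_iff₀ hr₁] at hj
      exact hj.le
    obtain ⟨hr0, hr1', hr2⟩ : r ≤ r₀ ∧ r ≤ u₀ ∧ r ≤ min 1 C⁻¹ / (K + 1) :=
      ⟨hrv.trans (min_le_left _ _), hrv.trans ((min_le_right _ _).trans (min_le_left _ _)),
        hrv.trans ((min_le_right _ _).trans (min_le_right _ _))⟩
    obtain ⟨hGp, hGr⟩ := hG r hr
    have hu1 : (K + 1) * r ≤ min 1 C⁻¹ := by
      rw [le_div_iff₀ (by linarith)] at hr2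
      linarith
    have hstep : K * G r + e * r ≤ (K + 1) * r := by
      linarith [mul_le_mul_of_nonneg_left hGr hK.le, mul_le_mul_of_nonneg_right he2 hr.le]
    have hbad : ∀ P c : ℝ, p ≤ P → c ≤ C → 0 ≤ c →
        min (δ * e * G r) (δ * G r) ≤ c * (K * G r + e * r) ^ P → False := by
      intro P c hP hc hc0 h1
      have hpos : 0 < K * G r + e * r := by positivity
      have h2 := h1.trans (hmono P c _ hP hc hc0 hpos
        (hstep.trans (hu1.trans (min_le_left _ _))))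
      have h3 := mul_le_mul_of_nonneg_left
        (Real.rpow_le_rpow hpos.le hstep (by linarith : (0 : ℝ) ≤ p)) hC.le
      have h4 := Hu r hr hr1'
      rw [lt_div_iff₀ (by positivity)] at h4
      rw [Real.mul_rpow (by linarith) hr.le] at h3
      have h5 : r ^ p = r ^ (p - q) * r ^ q := by
        rw [← Real.rpow_add hr, sub_add_cancel]
      rw [h5] at h3
      rw [← min_mul_of_nonneg _ _ hGp.le] at h2
      have h6 := mul_le_mul_of_nonneg_left hGlow hde.le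
      linarith [mul_lt_mul_of_pos_right h4 (Real.rpow_pos_of_pos hr q)]
    refine ⟨r, G r, hr, hr0, hGp, hGr, rfl, ?_, ?_⟩
    · by_contra hnd
      exact hbad pX CX (min_le_left _ _) (le_max_left _ _) hCX.le ((hX _ _ _ _ (mul_pos he hr)
        (mul_pos hK hGp).le (by positivity) (by positivity) hnd).2
          (hstep.trans (hu1.trans ((min_le_right _ _).trans hCi.1))))
    · by_contra hnd
      exact hbad pY CY (min_le_right _ _) (le_max_right _ _) hCY.le ((hY _ _ _ _ (mul_pos he hr)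
        (mul_pos hK hGp).le (by positivity) (by positivity) hnd).2
          (hstep.trans (hu1.trans ((min_le_right _ _).trans hCi.2))))

end Vale.Agent.P084.UC
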