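import Vale.Agent.P084.UC.EndPrep
import Vale.Agent.P084.Smooth.GainBasic

/-!
P084 for uniformly convex spaces, endgame: the states at a point where the gain is attained give
linear tests along every good chord from that point.
-/

open Filter Topology Metric

namespace Vale.Agent.P084.UC

open Vale.Agent.P084.Smooth

universe u v

variable {X : Type u} [NormedAddCommGroup X] [NormedSpace ℝ X]
  {Y : Type v} [NormedAddCommGroup Y] [NormedSpace ℝ Y]

theorem Good.weaken {d : X} {ρ t t' b b₂ β β₂ : ℝ} (h : Good d ρ t b β) (ht : t' ≤ t)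
    (hb : b ≤ b₂) (hβ : β ≤ β₂) : Good d ρ t' b₂ β₂ :=
  ⟨h.norm_one, fun ν h1 h2 h3 => (h.gain_le ν h1 h2 h3).trans (by linarith),
    fun k hk => (h.flat k (hk.trans ht)).trans (by linarith)⟩

theorem GoodDense.weaken {a a₂ ρ t t' b b₂ β β₂ : ℝ} (h : GoodDense X a ρ t b β) (ha : a ≤ a₂)
    (ht : t' ≤ t) (hb : b ≤ b₂) (hβ : β ≤ β₂) : GoodDense X a₂ ρ t' b₂ β₂ := fun d₀ hd₀ => by
  obtain ⟨d, hd, hg⟩ := h d₀ hd₀
  exact ⟨d, hd.trans ha, hg.weaken ht hb hβ⟩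

/-- a point of the sphere as a state -/
def constSt (f : sphere (0 : X) 1 ≃ᵢ sphere (0 : Y) 1) {r : ℝ} (hr : 0 ≤ r)
    (x : sphere (0 : X) 1) : St f r where
  x := fun _ => x
  y := fun _ => f x
  v := x
  u := f x
  img := Eventually.of_forall fun _ => ⟨x, rfl, rfl⟩
  wx := fun _ => tendsto_const_nhds
  wy := fun _ => tendsto_const_nhds
  hr := by
    have : rad (fun _ : ℕ => (x : X)) = 0 := by
      simp [rad, ulim_eq tendsto_const_nhds]
    rw [this]; exact hr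

theorem abs_step {α β A B ε : ℝ} (hα : |α| ≤ A) (hβ : |β| ≤ B) (hB : 0 ≤ B) {p q : ℝ}
    (hp : |p| ≤ ε) (hq : |q| ≤ ε) : |α * p - β * q| ≤ A * ε + B * ε := by
  refine (abs_sub _ _).trans (add_le_add ?_ ?_)
  · rw [abs_mul]; exact mul_le_mul hα hp (abs_nonneg _) ((abs_nonneg α).trans hα)
  · rw [abs_mul]; exact mul_le_mul hβ hq (abs_nonneg _) hB

theorem endPin (hN : NearPin.{u, v} X) (hK : KeyPin.{u, v} X) : EndPin.{u, v} X := by
  intro Y _ _ _ _ _ _ f hodd η hη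
  obtain ⟨σ, hσ, K₁, hK₁, hnear⟩ := hN Y
  obtain ⟨C, hC, hC1⟩ : ∃ C : ℝ, C = 32 * K₁ ∧ 1 ≤ C := ⟨_, rfl, by linarith⟩
  obtain ⟨l, hl, hl1, η₀, hη₀, a, ha, hadd⟩ := additive_of_tests X Y hη hC1
  obtain ⟨δ, hδ, hkey⟩ := hK Y l (η₀ / 12) hl hl1 (by positivity)
  refine ⟨δ, hδ, fun e he he1 => ?_⟩
  obtain ⟨K, hKpos, r₁, hr₁, hkey⟩ := hkey e he he1 8 (by norm_num)
  refine ⟨K, a, hKpos, ha, min r₁ (min σ (1 / 16)), by positivity,
    fun r hr hr₀ hpos hside hdense => ?_⟩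
  simp only [le_min_iff] at hr₀
  obtain ⟨hr₁', hrσ, hr16⟩ := hr₀
  obtain ⟨G, hG⟩ : ∃ G : ℝ, gain X r = G := ⟨_, rfl⟩
  rw [hG] at hpos hside hdense
  have hGr : G ≤ r := hG ▸ gain_le_self hr.le
  obtain ⟨g, ⟨z₀, ν, hz, hνb, hν0, hνr, rfl⟩, hglt⟩ := exists_lt_of_lt_csSup
    (Set.nonempty_iff_ne_empty.2 fun h => by rw [← hG] at hpos; simp [gain, h] at hpos)
    (show G / 2 < gain X r by rw [hG]; linarith)
  obtain ⟨z, rfl⟩ : ∃ z : sphere (0 : X) 1, (z : X) = z₀ :=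
    ⟨⟨z₀, mem_sphere_zero_iff_norm.2 hz⟩, rfl⟩
  have hpb : Bdd fun n => (z : X) + ν n := hνb.const_add _
  obtain ⟨P, hP⟩ : ∃ P : ℝ, (ulim fun n => ‖(z : X) + ν n‖) = P := ⟨_, rfl⟩
  rw [hP] at hglt
  obtain ⟨dd, hdd⟩ : ∃ dd : ℝ, dd = P - 1 := ⟨_, rfl⟩
  have hddlo : G / 2 ≤ dd := by linarith
  have hddhi : dd ≤ G := by
    have := ulim_le_gain hz hνb hν0 hνr
    rw [hP, hG] at this; linarith
  have hdd0 : 0 < dd := by linarith
  have hP1 : 1 ≤ P := by linarith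
  have hP2 : P ≤ 2 := by linarith
  have hP0 : 0 < P := by linarith
  have htt : Tendsto (fun n => ‖(z : X) + ν n‖) U0 (𝓝 P) := hP ▸ hpb.tendsto_norm
  have he0 : Tendsto (fun n => |‖(z : X) + ν n‖⁻¹ - P⁻¹| * ‖(z : X) + ν n‖) U0 (𝓝 0) := by
    simpa using (((htt.inv₀ hP0.ne').sub_const P⁻¹).abs).mul htt
  have hx1 : ∀ᶠ n in (U0 : Filter ℕ), ‖‖(z : X) + ν n‖⁻¹ • ((z : X) + ν n)‖ = 1 :=
    (htt.eventually_const_lt hP0).mono fun n hn => norm_unit hn
  obtain ⟨st, -, hstv⟩ := exists_st' (f := f) (r := r)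
    (x := fun n => ‖(z : X) + ν n‖⁻¹ • ((z : X) + ν n)) (v := P⁻¹ • (z : X)) hx1
    (((hν0.const_add (z : X)).smul P⁻¹).congr_tendsto (he0.congr fun n => by
      rw [← sub_smul, norm_smul, Real.norm_eq_abs]))
    (by
      refine (rad_le_of hνb (bdd_sphere hx1) he0 (inv_nonneg.2 hP0.le) hνr
        (Eventually.of_forall fun n => Eventually.of_forall fun m => ?_)).trans
        (mul_le_of_le_one_left hr.le (inv_le_one_of_one_le₀ hP1))
      rw [show ‖(z : X) + ν n‖⁻¹ • ((z : X) + ν n) - ‖(z : X) + ν m‖⁻¹ • ((z : X) + ν m)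
        = (‖(z : X) + ν n‖⁻¹ - P⁻¹) • ((z : X) + ν n)
          - (‖(z : X) + ν m‖⁻¹ - P⁻¹) • ((z : X) + ν m) + P⁻¹ • (ν n - ν m) by module]
      refine (norm_add_le _ _).trans (add_le_add ((norm_sub_le _ _).trans ?_) ?_)
      · rw [norm_smul, norm_smul, Real.norm_eq_abs, Real.norm_eq_abs]
      · rw [norm_smul_of_nonneg (inv_nonneg.2 hP0.le)])
  have hv0 : st.v - (z : X) = -((dd / P) • (z : X)) := by
    rw [hstv, hdd, sub_div, div_self hP0.ne', one_div]; module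
  have hE : ‖st.v - (z : X)‖ ≤ dd := by
    rw [hv0, norm_neg, norm_smul_of_nonneg (by positivity), hz, mul_one]
    exact div_le_self hdd0.le hP1
  have hu : ‖st.u - (f z : Y)‖ ≤ K₁ * (2 * G) :=
    (hnear f r G st z hr.le hrσ hG.le hside (hGr.trans hrσ) ((hE.trans hddhi).trans
      (hGr.trans hrσ))).trans (mul_le_mul_of_nonneg_left (by linarith) (by linarith))
  refine hadd f hodd z (fun d => Good d (e * r) (K * G) (δ * e * G) (δ * G))
    (fun d₀ hd₀ => by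
      obtain ⟨d, h1, h2⟩ := hdense d₀ hd₀
      exact ⟨d, h1, h2.norm_one, h2⟩) (fun p hp => ?_)
  -- the image of the displacement `p`
  obtain ⟨N, hN'⟩ : ∃ N : ℝ, ‖(z : X) + dd • p‖ = N := ⟨_, rfl⟩
  have hddp : ‖dd • p‖ ≤ 2 * dd := by
    rw [norm_smul_of_nonneg hdd0.le, mul_comm 2 dd]
    exact mul_le_mul_of_nonneg_left hp hdd0.le
  have hN1 : |N - 1| ≤ 2 * dd := by
    have := abs_norm_sub_norm_le ((z : X) + dd • p) (z : X)
    rw [hz, add_sub_cancel_left, hN'] at this; linarith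
  obtain ⟨hN1a, hN1b⟩ := abs_le.1 hN1
  have hN0 : 1 / 2 ≤ N := by linarith
  obtain ⟨x, hx⟩ : ∃ x : sphere (0 : X) 1, (x : X) = N⁻¹ • ((z : X) + dd • p) :=
    ⟨⟨N⁻¹ • ((z : X) + dd • p), mem_sphere_zero_iff_norm.2 (by
      rw [← hN']; exact norm_unit (by linarith))⟩, rfl⟩
  have hxz : (x : X) - z = N⁻¹ • (dd • p + (1 - N) • (z : X)) := by
    rw [hx, smul_add, smul_add, smul_smul N⁻¹ (1 - N), mul_sub, mul_one,
      inv_mul_cancel₀ (by linarith : N ≠ 0)]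
    module
  have hxd : ‖(x : X) - z‖ ≤ 8 * dd := by
    rw [hxz, norm_smul_of_nonneg (by positivity), inv_mul_le_iff₀ (by linarith)]
    refine (norm_add_le _ _).trans ?_
    rw [norm_smul (1 - N), hz, mul_one, Real.norm_eq_abs, abs_sub_comm]
    have : 1 / 2 * (8 * dd) ≤ N * (8 * dd) := mul_le_mul_of_nonneg_right hN0 (by positivity)
    linarith
  obtain ⟨α, hα⟩ : ∃ α : ℝ, α = N / dd := ⟨_, rfl⟩
  obtain ⟨β, hβ⟩ : ∃ β : ℝ, β = (N - 1) / dd * (P / dd) := ⟨_, rfl⟩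
  have hαb : |α| ≤ 2 / dd := by
    rw [hα, abs_div, abs_of_pos hdd0, abs_of_nonneg (by linarith)]
    exact div_le_div_of_nonneg_right (by linarith) hdd0.le
  have hβb : |β| ≤ 4 / dd := by
    rw [hβ, abs_mul, abs_div, abs_of_pos hdd0, abs_of_pos (show 0 < P / dd by positivity)]
    calc |N - 1| / dd * (P / dd) ≤ 2 * (2 / dd) := by
          gcongr
          · exact (div_le_iff₀ hdd0).2 hN1
      _ = 4 / dd := by ring
  refine ⟨α • ((f x : Y) - f z) - β • (st.u - (f z : Y)), ?_, fun w hw hgw => ?_⟩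
  · refine (norm_sub_le _ _).trans ?_
    rw [norm_smul, norm_smul, Real.norm_eq_abs, Real.norm_eq_abs, iso_norm_sub]
    have h1 := mul_le_mul hαb hxd (norm_nonneg _) (by positivity)
    have h2 := mul_le_mul hβb hu (norm_nonneg _) (by positivity)
    have h3 : 4 / dd * (K₁ * (2 * G)) ≤ 16 * K₁ := by
      rw [div_mul_eq_mul_div, div_le_iff₀ hdd0]
      have := mul_le_mul_of_nonneg_left hddlo (show 0 ≤ 16 * K₁ by linarith)
      linarith
    have h4 : 2 / dd * (8 * dd) = 16 := by field_simp; ring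
    rw [hC]
    linarith
  have hM : ∀ s : St f r, ‖s.v - (z : X)‖ ≤ 8 * dd →
      |J ((f z : Y) - f w) (s.u - (f z : Y)) - J ((z : X) - w) (s.v - z)| ≤ η₀ / 12 * G :=
    fun s hs => hkey f hodd z w hw r G s hr hr₁' hG.le hside hpos hGr hgw
      (hs.trans (by linarith))
  have h1 : |J ((f z : Y) - f w) ((f x : Y) - f z) - J ((z : X) - w) ((x : X) - z)|
      ≤ η₀ / 12 * G := hM (constSt f hr.le x) hxd
  have h2 := hM st (hE.trans (by linarith))
  have hp' : p = α • ((x : X) - z) - β • (st.v - (z : X)) := by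
    rw [hxz, hv0, hα, hβ, smul_neg, sub_neg_eq_add, smul_add, smul_add, smul_smul, smul_smul,
      smul_smul, smul_smul, smul_smul,
      show N / dd * N⁻¹ * dd = 1 by field_simp,
      show N / dd * N⁻¹ * (1 - N) = -((N - 1) / dd) by field_simp; ring,
      show (N - 1) / dd * (P / dd) * (dd / P) = (N - 1) / dd by field_simp]
    module
  rw [map_sub, map_smul, map_smul, hp', map_sub (J ((z : X) - w)), map_smul, map_smul,
    smul_eq_mul, smul_eq_mul, smul_eq_mul, smul_eq_mul]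
  have hb := abs_step hαb hβb (by positivity) h1 h2
  have h5 : 2 / dd * (η₀ / 12 * G) + 4 / dd * (η₀ / 12 * G) ≤ η₀ := by
    rw [show 2 / dd * (η₀ / 12 * G) + 4 / dd * (η₀ / 12 * G) = η₀ * G / 2 / dd by ring,
      div_le_iff₀ hdd0]
    have := mul_le_mul_of_nonneg_left hddlo hη₀.le
    linarith
  refine le_trans (le_of_eq ?_) (hb.trans h5)
  congr 1; ring

end Vale.Agent.P084.UC
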