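import Vale.Agent.P084.UC.Pins

/-!
P084 for uniformly convex spaces, endgame: linear tests along good chords from one point force
approximate additivity.
-/

open Filter Topology Metric

namespace Vale.Agent.P084.UC

open Vale.Agent.P084.Smooth

universe u v

variable {X : Type u} [NormedAddCommGroup X] [NormedSpace ℝ X]
  {Y : Type v} [NormedAddCommGroup Y] [NormedSpace ℝ Y]

theorem chordDir_smul {z d : X} {T : ℝ} (hT : 0 < T) (hd : ‖d‖ = 1) :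
    chordDir z (z - T • d) = d := by
  rw [chordDir, sub_sub_cancel, norm_smul_of_nonneg hT.le, hd, mul_one, inv_smul_smul₀ hT.ne']

theorem norm_chordDir {z w : X} {l : ℝ} (hl : 0 < l) (h : l ≤ ‖z - w‖) : ‖chordDir z w‖ = 1 := by
  rw [chordDir, norm_smul_of_nonneg (inv_nonneg.2 (norm_nonneg _)),
    inv_mul_cancel₀ (hl.trans_le h).ne']

/-- perturbing the direction of a chord moves its far end little -/
theorem chord_perturb (X : Type u) [NormedAddCommGroup X] [NormedSpace ℝ X] [UniformConvexSpace X]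
    {l ξ : ℝ} (hl : 0 < l) (hξ : 0 < ξ) :
    ∃ a : ℝ, 0 < a ∧ ∀ z w : X, ‖z‖ = 1 → ‖w‖ = 1 → l ≤ ‖z - w‖ → ∀ d : X, ‖d‖ = 1 →
      ‖d - chordDir z w‖ ≤ a → ∃ T : ℝ, l / 2 ≤ T ∧ ‖z - T • d‖ = 1 ∧ ‖z - T • d - w‖ ≤ ξ := by
  obtain ⟨κ, hκ, hκ1, hsl⟩ := chord_slope X hl
  refine ⟨min (κ * l / 8) (ξ * κ / 8), lt_min (by positivity) (by positivity),
    fun z w hz hw hzw d hd hda => ?_⟩
  obtain ⟨hsup, hin⟩ := hsl z w hz hw hzw
  set L := ‖z - w‖ with hL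
  set d₀ := chordDir z w
  set a := ‖d - d₀‖
  have ha1 : a ≤ κ * l / 8 := hda.trans (min_le_left _ _)
  have ha2 : a ≤ ξ * κ / 8 := hda.trans (min_le_right _ _)
  have ha0 : 0 ≤ a := norm_nonneg _
  have hL0 : 0 < L := hl.trans_le hzw
  have hL2 : L ≤ 2 := (norm_sub_le z w).trans (by rw [hz, hw]; norm_num)
  have hd₀ : ‖d₀‖ = 1 := norm_chordDir hl hzw
  have hLd : L • d₀ = z - w := smul_inv_smul₀ hL0.ne' _
  set Δ := 4 * a / κ with hΔ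
  have hΔ0 : 0 ≤ Δ := by positivity
  have hΔκ : κ * Δ = 4 * a := by rw [hΔ]; field_simp
  have hΔl : Δ ≤ l / 2 := by nlinarith
  have e : ∀ t : ℝ, z - t • d = (w + (L - t) • d₀) - t • (d - d₀) := fun t => by
    rw [sub_smul, hLd]; module
  have hlo : ‖z - (L - Δ) • d‖ ≤ 1 := by
    rw [e, sub_sub_cancel]
    refine (norm_sub_le _ _).trans ?_
    rw [norm_smul_of_nonneg (by linarith)]
    have h1 := hin Δ hΔ0 (by linarith)
    have h2 : (L - Δ) * a ≤ 2 * a := mul_le_mul_of_nonneg_right (by linarith) ha0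
    linarith
  have hhi : 1 ≤ ‖z - (L + Δ) • d‖ := by
    obtain ⟨ψ, hψ, hψw⟩ := exists_dual_vector'' ℝ w
    have hψw' : ψ w = 1 := by rw [← hw]; simpa using hψw
    have hψle : ∀ b, ψ b ≤ ‖b‖ := fun b => ((le_abs_self _).trans (ψ.le_opNorm b)).trans
      (mul_le_of_le_one_left (norm_nonneg _) hψ)
    have h1 := hsup ψ hψle hψw'
    have h2 := hψle (z - (L + Δ) • d)
    rw [e, show L - (L + Δ) = -Δ by ring, map_sub, map_add, map_smul, map_smul, hψw', smul_eq_mul,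
      smul_eq_mul] at h2
    rw [e, show L - (L + Δ) = -Δ by ring]
    have h3 : (L + Δ) * ψ (d - d₀) ≤ 3 * a :=
      (mul_le_mul_of_nonneg_left (hψle _) (by linarith)).trans
        (mul_le_mul_of_nonneg_right (by linarith) ha0)
    nlinarith
  obtain ⟨T, ⟨h1, h2⟩, hT⟩ := intermediate_value_Icc (by linarith : L - Δ ≤ L + Δ)
    (show ContinuousOn (fun t : ℝ => ‖z - t • d‖) (Set.Icc (L - Δ) (L + Δ)) by fun_prop) ⟨hlo, hhi⟩
  refine ⟨T, by linarith, hT, ?_⟩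
  rw [e, add_sub_assoc, add_sub_cancel_left]
  refine (norm_sub_le _ _).trans ?_
  rw [norm_smul, norm_smul, hd₀, Real.norm_eq_abs, Real.norm_eq_abs, mul_one]
  have h3 : |L - T| ≤ Δ := abs_le.2 ⟨by linarith, by linarith⟩
  have h4 : |T| * a ≤ 3 * a :=
    mul_le_mul_of_nonneg_right (abs_le.2 ⟨by linarith, by linarith⟩) ha0
  have h5 : Δ ≤ ξ / 2 := by rw [hΔ, div_le_iff₀ hκ]; linarith
  have h6 : 3 * a ≤ 3 * (ξ / 8) := by nlinarith
  linarith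

/-- the norming functional of `m'` almost norms every vector near `m'` -/
theorem J_near {m m' : X} : ‖m‖ - 2 * ‖m' - m‖ ≤ J m' m := by
  have h1 := J_self m'
  have h2 := J_le m' (m' - m)
  rw [map_sub] at h2
  have h3 := norm_sub_norm_le m m'
  rw [norm_sub_rev m m'] at h3
  linarith

theorem norm_unit {m : Y} (h : 0 < ‖m‖) : ‖‖m‖⁻¹ • m‖ = 1 := by
  rw [norm_smul_of_nonneg (inv_nonneg.2 h.le), inv_mul_cancel₀ h.ne']

section Chords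

variable {f : sphere (0 : X) 1 ≃ᵢ sphere (0 : Y) 1} {z : sphere (0 : X) 1} {Gd : X → Prop}
  {l₀ ξ : ℝ}

/-- next to every chord from `z` of length at least `l₀` there is a good one -/
def Pick (f : sphere (0 : X) 1 ≃ᵢ sphere (0 : Y) 1) (z : sphere (0 : X) 1) (Gd : X → Prop)
    (l₀ ξ : ℝ) : Prop :=
  ∀ w : sphere (0 : X) 1, l₀ ≤ ‖(z : X) - w‖ → ∃ w' : sphere (0 : X) 1,
    l₀ / 2 ≤ ‖(z : X) - w'‖ ∧ Gd (chordDir (z : X) w') ∧ ‖(w' : X) - w‖ ≤ ξ ∧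
    ‖(z : X) - w‖ - 2 * ξ ≤ J ((z : X) - w') ((z : X) - w) ∧
    ‖(z : X) - w‖ - 2 * ξ ≤ J ((f z : Y) - f w') ((f z : Y) - f w)

theorem pick_of_dense {a : ℝ} (hl₀ : 0 < l₀)
    (hper : ∀ z w : X, ‖z‖ = 1 → ‖w‖ = 1 → l₀ ≤ ‖z - w‖ → ∀ d : X, ‖d‖ = 1 →
      ‖d - chordDir z w‖ ≤ a → ∃ T : ℝ, l₀ / 2 ≤ T ∧ ‖z - T • d‖ = 1 ∧ ‖z - T • d - w‖ ≤ ξ)
    (hdense : ∀ d₀ : X, ‖d₀‖ = 1 → ∃ d : X, ‖d - d₀‖ ≤ a ∧ ‖d‖ = 1 ∧ Gd d) :
    Pick f z Gd l₀ ξ := by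
  intro w hw
  obtain ⟨d, hda, hd, hgd⟩ := hdense _ (norm_chordDir hl₀ hw)
  obtain ⟨T, hT, hT1, hTw⟩ := hper z w (sph_norm z) (sph_norm w) hw d hd hda
  refine ⟨⟨(z : X) - T • d, mem_sphere_zero_iff_norm.2 hT1⟩, ?_, ?_, hTw, ?_, ?_⟩
  · simp only [sub_sub_cancel, norm_smul_of_nonneg (by linarith : 0 ≤ T), hd, mul_one]
    exact hT
  · simp only [chordDir_smul (by linarith : 0 < T) hd]
    exact hgd
  · refine le_trans ?_ J_near
    simp only [sub_sub_sub_cancel_left]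
    rw [norm_sub_rev (w : X)]
    linarith
  · refine le_trans ?_ J_near
    simp only [sub_sub_sub_cancel_left]
    rw [iso_norm_sub, iso_norm_sub, norm_sub_rev (w : X)]
    simp only
    linarith

theorem norm_dir_sub {m b : Y} {r : ℝ} (hb : ‖b‖ = 1) (hm : ‖m - b‖ ≤ r) (hr : r < 1) :
    0 < ‖m‖ ∧ ‖‖m‖⁻¹ • m - b‖ ≤ 2 * r := by
  have h0 := abs_norm_sub_norm_le m b
  rw [hb, abs_le] at h0
  have hm0 : 0 < ‖m‖ := by linarith
  refine ⟨hm0, ?_⟩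
  have h1 : ‖‖m‖⁻¹ • m - m‖ = |1 - ‖m‖| := by
    rw [show ‖m‖⁻¹ • m - m = (‖m‖⁻¹ - 1) • m by module, norm_smul, Real.norm_eq_abs]
    conv_lhs => arg 2; rw [← abs_of_pos hm0]
    rw [← abs_mul, sub_mul, inv_mul_cancel₀ hm0.ne', one_mul]
  have h2 := norm_sub_le_norm_sub_add_norm_sub (‖m‖⁻¹ • m) m b
  rw [h1] at h2
  have : |1 - ‖m‖| ≤ r := abs_le.2 ⟨by linarith, by linarith⟩
  linarith

/-- a good functional almost norms every direction near `f z` -/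
theorem good_in_cap (hodd : OddMap f) (hpick : Pick f z Gd l₀ ξ) (hl₀ : l₀ ≤ 1) (hξ : 0 ≤ ξ)
    {e : Y} (he : ‖e‖ = 1) (hez : ‖e - (f z : Y)‖ ≤ 1 / 8) :
    ∃ w : sphere (0 : X) 1, l₀ / 2 ≤ ‖(z : X) - w‖ ∧ Gd (chordDir (z : X) w) ∧
      1 - 2 * ξ ≤ J ((f z : Y) - f w) e ∧ ‖(w : X) + z‖ ≤ 5 * ‖e - (f z : Y)‖ + ξ := by
  obtain ⟨L, hL1, hL2, hL, hL3⟩ := long_chord (sph_norm (f z)) he hez
  obtain ⟨we, hfwe⟩ : ∃ we : sphere (0 : X) 1, (f we : Y) = (f z : Y) - L • e :=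
    ⟨f.symm ⟨(f z : Y) - L • e, mem_sphere_zero_iff_norm.2 hL⟩, by simp⟩
  have hn : ‖(z : X) - we‖ = L := by
    rw [← iso_norm_sub f, hfwe, sub_sub_cancel, norm_smul_of_nonneg (by linarith), he, mul_one]
  obtain ⟨w, hw, hg, hwe, -, hψ⟩ := hpick we (by rw [hn]; linarith)
  refine ⟨w, hw, hg, ?_, ?_⟩
  · rw [hn, hfwe, sub_sub_cancel, map_smul, smul_eq_mul] at hψ
    by_contra hcon
    push Not at hcon
    have h1 := mul_lt_mul_of_pos_left hcon (by linarith : 0 < L)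
    have h2 : 2 * ξ ≤ L * (2 * ξ) := le_mul_of_one_le_left (by linarith) (by linarith)
    linarith
  · obtain ⟨zn, hzn⟩ : ∃ zn : sphere (0 : X) 1, (zn : X) = -(z : X) :=
      ⟨⟨-(z : X), by simp [sph_norm z]⟩, rfl⟩
    have h1 : ‖(we : X) + z‖ ≤ 5 * ‖e - (f z : Y)‖ := by
      rw [show (we : X) + z = (we : X) - zn by rw [hzn, sub_neg_eq_add], ← iso_norm_sub f, hfwe,
        hodd z zn hzn,
        show (f z : Y) - L • e - -(f z : Y) = (2 - L) • (f z : Y) + L • ((f z : Y) - e) by module]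
      refine (norm_add_le _ _).trans ?_
      rw [norm_smul, norm_smul_of_nonneg (by linarith : 0 ≤ L), sph_norm, mul_one, Real.norm_eq_abs,
        abs_sub_comm, norm_sub_rev (f z : Y)]
      nlinarith [norm_nonneg (e - (f z : Y))]
    have h2 := norm_add_le ((w : X) - we) ((we : X) + z)
    rw [show (w : X) - we + ((we : X) + z) = (w : X) + z by abel] at h2
    linarith

variable {p : X} {U : Y} {y : sphere (0 : X) 1} {η₀ C c₁ s : ℝ}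

/-- the image vector of a far chord points into the ball -/
theorem inward (hodd : OddMap f) (hpick : Pick f z Gd l₀ ξ) (hl₀ : l₀ ≤ 1) (hξ0 : 0 ≤ ξ)
    (hc₁ : 0 < c₁) (hc₁1 : c₁ ≤ 1) (hs : 0 < s) (hsC : s * C = c₁ / 80) (hξ1 : ξ ≤ c₁ / 8)
    (hξ2 : ξ ≤ s * c₁ / 32) (hη₁ : η₀ ≤ c₁ / 4) (hsum : ‖(z : X) + y‖ ≤ 2 - c₁) (hU : ‖U‖ ≤ C)
    (hUw : ∀ w : sphere (0 : X) 1, l₀ / 2 ≤ ‖(z : X) - w‖ → Gd (chordDir (z : X) w) →
      |J ((f z : Y) - f w) U - J ((z : X) - w) ((y : X) - z)| ≤ η₀) :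
    ‖(f z : Y) + s • U‖ < 1 ∧ c₁ / 4 ≤ ‖U‖ := by
  have hsU : ‖s • U‖ ≤ c₁ / 80 := by
    rw [norm_smul_of_nonneg hs.le, ← hsC]; exact mul_le_mul_of_nonneg_left hU hs.le
  obtain ⟨ys, hys⟩ : ∃ ys : Y, ys = (f z : Y) + s • U := ⟨_, rfl⟩
  rw [← hys]
  obtain ⟨hys0, hez⟩ := norm_dir_sub (m := ys) (b := (f z : Y)) (r := c₁ / 80) (sph_norm _)
    (by rw [hys, add_sub_cancel_left]; exact hsU) (by linarith)
  obtain ⟨w₁, hw₁, hg₁, hψe, hwz⟩ := good_in_cap hodd hpick hl₀ hξ0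
    (norm_unit hys0) (hez.trans (by linarith))
  have hφp : J ((z : X) - w₁) ((y : X) - z) ≤ -(c₁ / 2) := by
    have h1 : J ((z : X) - w₁) (z : X) - J ((z : X) - w₁) (w₁ : X) = ‖(z : X) - w₁‖ := by
      rw [← map_sub]; exact J_self _
    have hL₁ : 2 - ‖(w₁ : X) + z‖ ≤ ‖(z : X) - w₁‖ := by
      have h := norm_sub_norm_le ((2 : ℝ) • (z : X)) ((z : X) + w₁)
      rw [norm_smul_of_nonneg (by norm_num), sph_norm, mul_one,
        show (2 : ℝ) • (z : X) - ((z : X) + w₁) = (z : X) - w₁ by module, add_comm (z : X)] at h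
      linarith
    have h2 := J_le ((z : X) - w₁) ((2 : ℝ) • ((z : X) + y) - ((w₁ : X) + z))
    rw [map_sub, map_smul, map_add, map_add, smul_eq_mul] at h2
    have h3 := norm_sub_le ((2 : ℝ) • ((z : X) + y)) ((w₁ : X) + z)
    rw [norm_smul_of_nonneg (by norm_num)] at h3
    have h4 := neg_le_J ((z : X) - w₁) (w₁ : X)
    rw [sph_norm] at h4
    rw [map_sub]
    linarith
  have hψU : J ((f z : Y) - f w₁) U ≤ -(c₁ / 4) := by
    linarith [(abs_le.1 (hUw w₁ hw₁ hg₁)).2]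
  refine ⟨?_, by linarith [neg_le_J ((f z : Y) - f w₁) U]⟩
  have h1 := J_le ((f z : Y) - f w₁) (f z : Y)
  rw [sph_norm] at h1
  have h2 : J ((f z : Y) - f w₁) ys = ‖ys‖ * J ((f z : Y) - f w₁) (‖ys‖⁻¹ • ys) := by
    rw [map_smul, smul_eq_mul, ← mul_assoc, mul_inv_cancel₀ hys0.ne', one_mul]
  have h2' : J ((f z : Y) - f w₁) ys
      = J ((f z : Y) - f w₁) (f z : Y) + s * J ((f z : Y) - f w₁) U := by
    rw [hys, map_add, map_smul, smul_eq_mul]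
  have h3 := mul_le_mul_of_nonneg_left hψU hs.le
  have h4 := mul_le_mul_of_nonneg_left hψe hys0.le
  by_contra hcon
  push Not at hcon
  have h5 : 1 * (1 - 2 * ξ) ≤ ‖ys‖ * (1 - 2 * ξ) := mul_le_mul_of_nonneg_right hcon (by linarith)
  have : 0 < s * c₁ := by positivity
  linarith

/-- the image vector is no longer than the chord -/
theorem upper_len (hpick : Pick f z Gd l₀ ξ) (hl₀ : 0 < l₀) (hξ0 : 0 ≤ ξ) (hs : 0 < s)
    (hC : 0 ≤ C) (hU : ‖U‖ ≤ C) (hsU : s * ‖U‖ ≤ 3) (hl : l₀ ≤ s * ‖U‖)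
    (hin : ‖(f z : Y) + s • U‖ < 1)
    (hUw : ∀ w : sphere (0 : X) 1, l₀ / 2 ≤ ‖(z : X) - w‖ → Gd (chordDir (z : X) w) →
      |J ((f z : Y) - f w) U - J ((z : X) - w) p| ≤ η₀) :
    ‖U‖ ≤ ‖p‖ + η₀ + 2 * C * ξ / l₀ := by
  have hU0 : 0 < ‖U‖ := pos_of_mul_pos_right (hl₀.trans_le hl) hs.le
  obtain ⟨q, hq, hq1⟩ : ∃ q : Y, ‖U‖ • q = U ∧ ‖q‖ = 1 :=
    ⟨‖U‖⁻¹ • U, smul_inv_smul₀ hU0.ne' U, norm_unit hU0⟩
  have hsq : (s * ‖U‖) • q = s • U := by rw [mul_smul, hq]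
  have h3 : 1 ≤ ‖(f z : Y) + (3 : ℝ) • q‖ := by
    have h := norm_sub_le_norm_add ((3 : ℝ) • q) (f z : Y)
    rw [norm_smul_of_nonneg (by norm_num), hq1, sph_norm, add_comm] at h
    linarith
  obtain ⟨T, ⟨hT1, -⟩, hT⟩ := intermediate_value_Icc hsU
    (show ContinuousOn (fun t : ℝ => ‖(f z : Y) + t • q‖) (Set.Icc (s * ‖U‖) 3) by fun_prop)
    ⟨by simp only [hsq]; exact hin.le, h3⟩
  have hT0 : 0 < T := hl₀.trans_le (hl.trans hT1)
  obtain ⟨wq, hfwq⟩ : ∃ wq : sphere (0 : X) 1, (f wq : Y) = (f z : Y) + T • q :=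
    ⟨f.symm ⟨(f z : Y) + T • q, mem_sphere_zero_iff_norm.2 hT⟩, by simp⟩
  have hwqn : ‖(z : X) - wq‖ = T := by
    rw [← iso_norm_sub f, hfwq, sub_add_cancel_left, norm_neg, norm_smul_of_nonneg hT0.le, hq1,
      mul_one]
  obtain ⟨w₂, hw₂, hg₂, -, -, hψ⟩ := hpick wq ((hl.trans hT1).trans hwqn.ge)
  rw [hwqn, hfwq, sub_add_cancel_left, map_neg, map_smul, smul_eq_mul] at hψ
  have h1 := (abs_le.1 (hUw w₂ hw₂ hg₂)).1
  have h2 := neg_le_J ((z : X) - w₂) p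
  have h4 : J ((f z : Y) - f w₂) U = ‖U‖ * J ((f z : Y) - f w₂) q := by
    rw [← smul_eq_mul, ← map_smul, hq]
  rw [h4] at h1
  have h5 := mul_le_mul_of_nonneg_left hψ hU0.le
  have h6 : 2 * ξ * ‖U‖ ≤ T * (2 * C * ξ / l₀) := by
    rw [mul_div_assoc', le_div_iff₀ hl₀]
    calc 2 * ξ * ‖U‖ * l₀ ≤ 2 * ξ * C * l₀ := by gcongr
      _ ≤ 2 * ξ * C * T := by gcongr; exact hl.trans hT1
      _ = T * (2 * C * ξ) := by ring
  have h7 := mul_le_mul_of_nonneg_left h1 hT0.le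
  have h8 := mul_le_mul_of_nonneg_left h2 hT0.le
  by_contra hcon
  push Not at hcon
  have h9 := mul_lt_mul_of_pos_left hcon hT0
  nlinarith

/-- the image vector is the chord of the image -/
theorem identify (hpick : Pick f z Gd l₀ ξ) {ζ η₃ c₂ θ₀ : ℝ} (hc₂ : 0 < c₂) (hθ0 : 0 ≤ θ₀)
    (hθ1 : θ₀ ≤ c₂ * η₃ / 8) (hξ5 : ξ ≤ c₂ * η₃ / 64) (hη₂ : η₀ ≤ c₂ * η₃ / 32) (hη₃ : 0 < η₃)
    (hζ : 0 ≤ ζ) (hy : η₃ ≤ ‖(z : X) - y‖) (hyl : l₀ ≤ ‖(z : X) - y‖)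
    (hUle : ‖U‖ ≤ ‖(z : X) - y‖ + θ₀) (hR4 : ‖(z : X) - y‖ + θ₀ ≤ 4)
    (huc : ∀ (R : ℝ) (a b : Y), ‖a‖ ≤ R → ‖b‖ ≤ R → ζ / 8 * R ≤ ‖a - b‖ →
      ‖a + b‖ ≤ (2 - c₂) * R)
    (hUw : ∀ w : sphere (0 : X) 1, l₀ / 2 ≤ ‖(z : X) - w‖ → Gd (chordDir (z : X) w) →
      |J ((f z : Y) - f w) U - J ((z : X) - w) ((y : X) - z)| ≤ η₀) :
    ‖U - ((f y : Y) - f z)‖ ≤ ζ / 2 := by
  by_contra hcon
  push Not at hcon
  obtain ⟨w₃, hw₃, hg₃, -, hφ₃, hψ₃⟩ := hpick y hyl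
  have h1 := huc (‖(z : X) - y‖ + θ₀) (-U) ((f z : Y) - f y) (by rw [norm_neg]; exact hUle)
    (by rw [iso_norm_sub]; linarith) (by
      rw [show -U - ((f z : Y) - f y) = -(U - ((f y : Y) - f z)) by abel, norm_neg]
      have : ζ / 8 * (‖(z : X) - y‖ + θ₀) ≤ ζ / 8 * 4 :=
        mul_le_mul_of_nonneg_left hR4 (by positivity)
      linarith)
  have h2 := (abs_le.1 (hUw w₃ hw₃ hg₃)).2
  rw [show (y : X) - z = -((z : X) - y) by abel, map_neg] at h2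
  have h4 := J_le ((f z : Y) - f w₃) (-U + ((f z : Y) - f y))
  rw [map_add, map_neg] at h4
  have hc2L : c₂ * η₃ ≤ c₂ * ‖(z : X) - y‖ := mul_le_mul_of_nonneg_left hy hc₂.le
  have : 0 ≤ c₂ * θ₀ := by positivity
  have : 0 < c₂ * η₃ := by positivity
  linarith

/-- good functionals of the cap separate points -/
theorem separate (hodd : OddMap f) (hpick : Pick f z Gd l₀ ξ) (hl₀ : l₀ ≤ 1) (hξ0 : 0 ≤ ξ)
    {c : ℝ} (hc : 0 < c) (hc1 : c ≤ 1) (hξ : ξ ≤ c / 48)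
    (huc : ∀ (R : ℝ) (a b : Y), ‖a‖ ≤ R → ‖b‖ ≤ R → 1 / 20 * R ≤ ‖a - b‖ →
      ‖a + b‖ ≤ (2 - c) * R)
    {k : Y} {B : ℝ} (hk : ∀ w : sphere (0 : X) 1, l₀ / 2 ≤ ‖(z : X) - w‖ →
      Gd (chordDir (z : X) w) → |J ((f z : Y) - f w) k| ≤ B) : c / 8 * ‖k‖ ≤ B := by
  by_contra hcon
  push Not at hcon
  have hk0 : 0 < ‖k‖ := by
    refine (norm_nonneg k).lt_of_ne fun h => ?_
    obtain ⟨w, hw, hg, -⟩ := good_in_cap hodd hpick hl₀ hξ0 (sph_norm (f z)) (by simp)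
    have := (abs_nonneg _).trans (hk w hw hg)
    rw [← h, mul_zero] at hcon
    linarith
  obtain ⟨kh, hkh, hkh1⟩ : ∃ kh : Y, ‖k‖ • kh = k ∧ ‖kh‖ = 1 :=
    ⟨‖k‖⁻¹ • k, smul_inv_smul₀ hk0.ne' k, norm_unit hk0⟩
  have half : ∀ σ : ℝ, |σ| = 1 → ‖(f z : Y) + (σ / 20) • kh‖ ≤ (1 + c / 8) / (1 - c / 16) := by
    intro σ hσ
    obtain ⟨m, hm⟩ : ∃ m : Y, m = (f z : Y) + (σ / 20) • kh := ⟨_, rfl⟩
    rw [← hm]
    obtain ⟨hm0, hez⟩ := norm_dir_sub (m := m) (b := (f z : Y)) (r := 1 / 20) (sph_norm _) (by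
      rw [hm, add_sub_cancel_left, norm_smul, hkh1, mul_one, Real.norm_eq_abs, abs_div, hσ]
      norm_num) (by norm_num)
    obtain ⟨w₁, hw₁, hg₁, hψe, -⟩ := good_in_cap hodd hpick hl₀ hξ0
      (norm_unit hm0) (hez.trans (by norm_num))
    have h2 : J ((f z : Y) - f w₁) m = ‖m‖ * J ((f z : Y) - f w₁) (‖m‖⁻¹ • m) := by
      rw [map_smul, smul_eq_mul, ← mul_assoc, mul_inv_cancel₀ hm0.ne', one_mul]
    have h2' : J ((f z : Y) - f w₁) m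
        = J ((f z : Y) - f w₁) (f z : Y) + σ / 20 * J ((f z : Y) - f w₁) kh := by
      rw [hm, map_add, map_smul, smul_eq_mul]
    have h3 := J_le ((f z : Y) - f w₁) (f z : Y)
    rw [sph_norm] at h3
    have h4 : σ / 20 * J ((f z : Y) - f w₁) kh ≤ c / 8 := by
      refine (le_abs_self _).trans ?_
      rw [abs_mul, abs_div, hσ]
      have h5 := hk w₁ hw₁ hg₁
      rw [← hkh, map_smul, smul_eq_mul, abs_mul, abs_norm] at h5
      refine (mul_le_of_le_one_left (abs_nonneg _) (by norm_num)).trans ?_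
      by_contra h6
      push Not at h6
      have := mul_lt_mul_of_pos_left h6 hk0
      linarith
    have h4' := mul_le_mul_of_nonneg_left hψe hm0.le
    rw [le_div_iff₀ (by linarith)]
    have h7 : ‖m‖ * (2 * ξ) ≤ ‖m‖ * (c / 16) :=
      mul_le_mul_of_nonneg_left (by linarith) hm0.le
    linarith
  have hR2 : (1 + c / 8) / (1 - c / 16) ≤ 2 := by rw [div_le_iff₀ (by linarith)]; linarith
  have h1 := huc _ _ _ (half 1 abs_one) (half (-1) (by simp)) (by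
    rw [show (f z : Y) + ((1 : ℝ) / 20) • kh - ((f z : Y) + ((-1 : ℝ) / 20) • kh)
      = (1 / 10 : ℝ) • kh by module, norm_smul_of_nonneg (by norm_num), hkh1]
    linarith)
  rw [show (f z : Y) + ((1 : ℝ) / 20) • kh + ((f z : Y) + ((-1 : ℝ) / 20) • kh)
    = (2 : ℝ) • (f z : Y) by module, norm_smul_of_nonneg (by norm_num), sph_norm,
    mul_div_assoc', le_div_iff₀ (by linarith)] at h1
  nlinarith

end Chords

/-- linear tests at one point, along a dense family of chords, give approximate additivity -/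
theorem additive_of_tests (X : Type u) [NormedAddCommGroup X] [NormedSpace ℝ X]
    [UniformConvexSpace X] (Y : Type v) [NormedAddCommGroup Y] [NormedSpace ℝ Y]
    [UniformConvexSpace Y] {η C : ℝ} (hη : 0 < η) (hC : 1 ≤ C) :
    ∃ l : ℝ, 0 < l ∧ l ≤ 1 ∧ ∃ η₀ : ℝ, 0 < η₀ ∧ ∃ a : ℝ, 0 < a ∧
      ∀ (f : sphere (0 : X) 1 ≃ᵢ sphere (0 : Y) 1), OddMap f → ∀ (z : sphere (0 : X) 1)
        (Gd : X → Prop), (∀ d₀ : X, ‖d₀‖ = 1 → ∃ d : X, ‖d - d₀‖ ≤ a ∧ ‖d‖ = 1 ∧ Gd d) →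
        (∀ p : X, ‖p‖ ≤ 2 → ∃ U : Y, ‖U‖ ≤ C ∧ ∀ w : sphere (0 : X) 1, l ≤ ‖(z : X) - w‖ →
          Gd (chordDir (z : X) w) → |J ((f z : Y) - f w) U - J ((z : X) - w) p| ≤ η₀) →
        AddClose f η := by
  obtain ⟨c, hc, hc1, hsep⟩ := uc_ball Y (show (0 : ℝ) < 1 / 20 by norm_num)
  obtain ⟨ζ, hζ0, hζ1, hζη⟩ : ∃ ζ : ℝ, 0 < ζ ∧ ζ ≤ 1 ∧ ζ ≤ η * c / 128 :=
    ⟨min 1 (η * c / 128), lt_min one_pos (by positivity), min_le_left _ _, min_le_right _ _⟩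
  obtain ⟨η₃, h30, h3ζ⟩ : ∃ η₃ : ℝ, 0 < η₃ ∧ η₃ = ζ / 4 := ⟨_, by positivity, rfl⟩
  obtain ⟨c₁, hc₁, hc₁1, huc₁⟩ := uc_ball X h30
  obtain ⟨c₂, hc₂, hc₂1, huc₂⟩ := uc_ball Y (show (0 : ℝ) < ζ / 8 by positivity)
  obtain ⟨s, hs0, hs⟩ : ∃ s : ℝ, 0 < s ∧ s = c₁ / (80 * C) := ⟨_, by positivity, rfl⟩
  have hsC : s * C = c₁ / 80 := by rw [hs]; field_simp
  obtain ⟨l₀, hl₀0, hl₀a, hl₀b⟩ : ∃ l₀ : ℝ, 0 < l₀ ∧ l₀ ≤ s * c₁ / 4 ∧ l₀ ≤ η₃ :=
    ⟨min (s * c₁ / 4) η₃, lt_min (by positivity) h30, min_le_left _ _, min_le_right _ _⟩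
  have hl₀1 : l₀ ≤ 1 := by linarith
  obtain ⟨η₀, hη₀0, hη₁, hη₂, hη₃⟩ : ∃ η₀ : ℝ, 0 < η₀ ∧ η₀ ≤ c₁ / 4 ∧ η₀ ≤ c₂ * η₃ / 32 ∧
      η₀ ≤ ζ / 2 :=
    ⟨min (c₁ / 4) (min (c₂ * η₃ / 32) (ζ / 2)), by positivity, min_le_left _ _,
      (min_le_right _ _).trans (min_le_left _ _), (min_le_right _ _).trans (min_le_right _ _)⟩
  obtain ⟨ξ, hξ0, hξ1, hξ2, hξ3, hξ4⟩ : ∃ ξ : ℝ, 0 < ξ ∧ ξ ≤ c₁ / 8 ∧ ξ ≤ s * c₁ / 32 ∧
      ξ ≤ c₂ * η₃ * l₀ / (64 * C) ∧ ξ ≤ c / 48 :=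
    ⟨min (min (c₁ / 8) (s * c₁ / 32)) (min (c₂ * η₃ * l₀ / (64 * C)) (c / 48)), by positivity,
      (min_le_left _ _).trans (min_le_left _ _), (min_le_left _ _).trans (min_le_right _ _),
      (min_le_right _ _).trans (min_le_left _ _), (min_le_right _ _).trans (min_le_right _ _)⟩
  obtain ⟨a, ha, hper⟩ := chord_perturb X hl₀0 hξ0
  refine ⟨l₀ / 2, by positivity, by linarith, η₀, hη₀0, a, ha, ?_⟩
  intro f hodd z Gd hdense H
  have hpick : Pick f z Gd l₀ ξ := pick_of_dense hl₀0 hper hdense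
  obtain ⟨zn, hzn⟩ : ∃ zn : sphere (0 : X) 1, (zn : X) = -(z : X) :=
    ⟨⟨-(z : X), by simp [sph_norm z]⟩, rfl⟩
  have hzn' := hodd z zn hzn
  have htest : ∀ w : sphere (0 : X) 1, l₀ / 2 ≤ ‖(z : X) - w‖ → Gd (chordDir (z : X) w) →
      ∀ y : sphere (0 : X) 1,
        |J ((f z : Y) - f w) ((f y : Y) - f z) - J ((z : X) - w) ((y : X) - z)| ≤ ζ := by
    intro w hw hgw y
    by_cases hy : ‖(z : X) - y‖ < η₃
    · have hy' : ‖(f y : Y) - f z‖ < η₃ := by rwa [iso_norm_sub, norm_sub_rev]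
      rw [norm_sub_rev] at hy
      rw [abs_le]
      constructor <;> linarith [J_le ((f z : Y) - f w) ((f y : Y) - f z),
        neg_le_J ((f z : Y) - f w) ((f y : Y) - f z), J_le ((z : X) - w) ((y : X) - z),
        neg_le_J ((z : X) - w) ((y : X) - z)]
    push Not at hy
    have hL2 : ‖(z : X) - y‖ ≤ 2 :=
      (norm_sub_le _ _).trans (by rw [sph_norm, sph_norm]; norm_num)
    obtain ⟨U, hU, hUw⟩ := H ((y : X) - z) (by rw [norm_sub_rev]; exact hL2)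
    have hsum : ‖(z : X) + y‖ ≤ 2 - c₁ := by
      have := huc₁ 1 (z : X) y (sph_norm z).le (sph_norm y).le (by rw [mul_one]; exact hy)
      rwa [mul_one] at this
    obtain ⟨hin, hUl⟩ := inward hodd hpick hl₀1 hξ0.le hc₁ hc₁1 hs0 hsC hξ1 hξ2 hη₁ hsum hU hUw
    have hsU : s * ‖U‖ ≤ 3 := by
      linarith [mul_le_mul_of_nonneg_left hU hs0.le]
    have hlU : l₀ ≤ s * ‖U‖ := by
      linarith [mul_le_mul_of_nonneg_left hUl hs0.le]
    have hlen := upper_len (p := (y : X) - z) hpick hl₀0 hξ0.le hs0 (by linarith) hU hsU hlU hin hUw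
    rw [norm_sub_rev, add_assoc] at hlen
    have hterm : 2 * C * ξ / l₀ ≤ c₂ * η₃ / 32 := by
      rw [div_le_iff₀ hl₀0]
      rw [le_div_iff₀ (by positivity)] at hξ3
      linarith
    have hce : c₂ * η₃ ≤ 1 := mul_le_one₀ hc₂1 h30.le (by linarith)
    have hξ5 : ξ ≤ c₂ * η₃ / 64 := by
      refine hξ3.trans (div_le_div₀ (by positivity) ?_ (by norm_num) (by linarith))
      exact mul_le_of_le_one_right (by positivity) hl₀1
    have hkey := identify hpick hc₂ (by positivity : 0 ≤ η₀ + 2 * C * ξ / l₀)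
      (by linarith [mul_nonneg hc₂.le h30.le]) hξ5 hη₂ h30 hζ0.le hy (hl₀b.trans hy) hlen
      (by linarith) huc₂ hUw
    have h1 := abs_le.1 (hUw w hw hgw)
    have h2 := (J_le ((f z : Y) - f w) (U - ((f y : Y) - f z))).trans hkey
    have h3' := (neg_le_neg hkey).trans (neg_le_J ((f z : Y) - f w) (U - ((f y : Y) - f z)))
    simp only [map_sub] at h1 h2 h3' ⊢
    rw [abs_le]
    constructor <;> linarith
  have hpoint : ∀ w : sphere (0 : X) 1, l₀ / 2 ≤ ‖(z : X) - w‖ → Gd (chordDir (z : X) w) →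
      ∀ y : sphere (0 : X) 1, |J ((f z : Y) - f w) (f y : Y) - J ((z : X) - w) (y : X)|
        ≤ 2 * ζ := by
    intro w hw hgw y
    have h1 := abs_le.1 (htest w hw hgw y)
    have h2 := abs_le.1 (htest w hw hgw zn)
    simp only [hzn, hzn', map_sub, map_neg] at h1 h2
    rw [abs_le]
    constructor <;> linarith
  intro b₁ b₂ b₃ α β γ hα hβ hγ hrel
  have hk := separate (k := α • (f b₁ : Y) + β • (f b₂ : Y) + γ • (f b₃ : Y)) (B := 6 * ζ)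
    hodd hpick hl₀1 hξ0.le hc hc1 hξ4 hsep fun w hw hgw => by
      have h0 : J ((z : X) - w) (α • (b₁ : X) + β • (b₂ : X) + γ • (b₃ : X)) = 0 := by
        rw [hrel, map_zero]
      simp only [map_add, map_smul, smul_eq_mul] at h0 ⊢
      have hb : ∀ (t : ℝ) (y : sphere (0 : X) 1), |t| ≤ 1 →
          |t * (J ((f z : Y) - f w) (f y : Y) - J ((z : X) - w) (y : X))| ≤ 2 * ζ :=
        fun t y ht => by
          rw [abs_mul]
          exact (mul_le_of_le_one_left (abs_nonneg _) ht).trans (hpoint w hw hgw y)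
      have a1 := abs_le.1 (hb α b₁ hα)
      have a2 := abs_le.1 (hb β b₂ hβ)
      have a3 := abs_le.1 (hb γ b₃ hγ)
      rw [abs_le]
      constructor <;> linarith
  nlinarith

end Vale.Agent.P084.UC
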