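import Vale.Agent.P084.UC.Pins
import Vale.Agent.P084.Smooth.GainBasic

/-!
P084 for uniformly convex spaces, block C: the weak limit of the image lies near the image of a
near point. Only the uniform convexity of the target is used.
-/

open Filter Topology Metric

namespace Vale.Agent.P084.UC

open Vale.Agent.P084.Smooth

universe u v

variable {X : Type u} [NormedAddCommGroup X] [NormedSpace ℝ X]
  {Y : Type v} [NormedAddCommGroup Y] [NormedSpace ℝ Y]

/-- the direction of a vector near a positive multiple of a unit vector -/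
theorem dir_sub_le {a w : Y} {s : ℝ} (ha : ‖a‖ = 1) (hs : 0 ≤ s) (hw : 0 < ‖w‖) :
    ‖‖w‖⁻¹ • w - a‖ ≤ 2 * ‖w - s • a‖ / ‖w‖ := by
  have e : ‖w‖⁻¹ • w - a = ‖w‖⁻¹ • (w - ‖w‖ • a) := by
    rw [smul_sub, inv_smul_smul₀ hw.ne']
  have h1 : ‖s • a - ‖w‖ • a‖ = |s - ‖w‖| := by
    rw [← sub_smul, norm_smul, ha, mul_one, Real.norm_eq_abs]
  have h2 : |s - ‖w‖| ≤ ‖w - s • a‖ := by
    have h := abs_norm_sub_norm_le (s • a) w
    rwa [norm_smul_of_nonneg hs, ha, mul_one, norm_sub_rev] at h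
  have h3 := norm_sub_le_norm_sub_add_norm_sub w (s • a) (‖w‖ • a)
  rw [e, norm_smul_of_nonneg (inv_nonneg.2 hw.le), div_eq_inv_mul]
  exact mul_le_mul_of_nonneg_left (by linarith) (inv_nonneg.2 hw.le)

/-- if the long chords from `a` do not see the translation by `k`, then neither do the vectors near
`(6 / 5) • a` -/
theorem short_shift {a k : Y} {B : ℝ} (ha : ‖a‖ = 1) (hk : ‖k‖ ≤ 1 / 80)
    (htest : ∀ m : Y, 3 / 2 ≤ ‖m‖ → ‖a - m‖ = 1 → |‖m + k‖ - ‖m‖| ≤ B)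
    {w : Y} (hw : ‖w - (6 / 5 : ℝ) • a‖ ≤ 1 / 40) : |‖w + k‖ - ‖w‖| ≤ B := by
  have h65 : ‖(6 / 5 : ℝ) • a‖ = 6 / 5 := by
    rw [norm_smul_of_nonneg (by norm_num), ha, mul_one]
  have hwb := abs_le.1 ((abs_norm_sub_norm_le w ((6 / 5 : ℝ) • a)).trans hw)
  rw [h65] at hwb
  have hwk : ‖w + k - (6 / 5 : ℝ) • a‖ ≤ 1 / 40 + 1 / 80 := by
    rw [add_sub_right_comm]; exact norm_add_le_of_le hw hk
  have hwkb := abs_le.1 ((abs_norm_sub_norm_le (w + k) ((6 / 5 : ℝ) • a)).trans hwk)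
  rw [h65] at hwkb
  have far : ∀ v : Y, 1 ≤ ‖v‖ → ‖v‖ ≤ 3 / 2 → ‖v - (6 / 5 : ℝ) • a‖ ≤ 1 / 20 →
      ∃ L : ℝ, 7 / 4 ≤ L ∧ |‖L • (‖v‖⁻¹ • v) + k‖ - L| ≤ B := by
    intro v hv1 hv2 hv
    have hvp : 0 < ‖v‖ := by linarith
    obtain ⟨e, he⟩ : ∃ e, e = ‖v‖⁻¹ • v := ⟨_, rfl⟩
    rw [← he]
    have he1 : ‖e‖ = 1 := by rw [he]; exact norm_smul_inv_norm (norm_pos_iff.1 hvp)
    have hea : ‖e - a‖ ≤ 1 / 8 := by
      rw [he]
      refine (dir_sub_le ha (by norm_num : (0 : ℝ) ≤ 6 / 5) hvp).trans ?_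
      rw [div_le_iff₀ hvp]; linarith
    obtain ⟨L, hL1, -, hL, -⟩ := long_chord ha he1 hea
    have hn : ‖L • e‖ = L := by rw [norm_smul_of_nonneg (by linarith), he1, mul_one]
    have h := htest (L • e) (by linarith) hL
    rw [hn] at h
    exact ⟨L, hL1, h⟩
  rw [abs_le]
  constructor
  · obtain ⟨L, hL1, hL⟩ := far w (by linarith) (by linarith) (by linarith)
    obtain ⟨e, he⟩ : ∃ e, e = ‖w‖⁻¹ • w := ⟨_, rfl⟩
    have hwe : ‖w‖ • e = w := by rw [he, smul_inv_smul₀ (by linarith)]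
    rw [← he] at hL
    have he1 : ‖e‖ = 1 := by
      rw [he]; exact norm_smul_inv_norm (norm_pos_iff.1 (by linarith : (0 : ℝ) < ‖w‖))
    have h := norm_add_le (w + k) ((L - ‖w‖) • e)
    rw [show w + k + (L - ‖w‖) • e = L • e + k by rw [sub_smul, hwe]; abel,
      norm_smul_of_nonneg (by linarith), he1, mul_one] at h
    linarith [(abs_le.1 hL).1]
  · obtain ⟨L, hL1, hL⟩ := far (w + k) (by linarith) (by linarith) (by linarith)
    obtain ⟨e, he⟩ : ∃ e, e = ‖w + k‖⁻¹ • (w + k) := ⟨_, rfl⟩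
    rw [← he] at hL
    have hJe : J (w + k) e = 1 := by
      rw [he, map_smul, smul_eq_mul, J_self, inv_mul_cancel₀ (by linarith)]
    have h1 := J_le (w + k) (L • e + k)
    rw [map_add, map_smul, smul_eq_mul, hJe, mul_one] at h1
    have h2 := J_self (w + k)
    rw [map_add] at h2
    linarith [J_le (w + k) w, (abs_le.1 hL).2]

/-- block C -/
theorem nearPin : NearPin.{u, v} X := by
  intro Y _ _ _ _
  obtain ⟨c, hc, hc1, huc⟩ := uc_ball Y (by norm_num : (0 : ℝ) < 1 / 80)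
  refine ⟨1 / 160, by norm_num, max 1 (1 / (24 * c)), le_max_left _ _, ?_⟩
  intro f r G st a hr hrσ hgX hgY hGσ hEσ
  set E := ‖st.v - a‖ with hE
  have hE0 : 0 ≤ E := norm_nonneg _
  have hG0 : 0 ≤ G := ((gainFacts X).nonneg r hr).trans hgX
  set a' : Y := (f a : Y) with ha'
  have ha1 : ‖a'‖ = 1 := sph_norm _
  set k := st.u - a' with hk
  have hxb : Bdd st.x := bdd_sphere st.x_one
  have hyb : Bdd st.y := bdd_sphere st.y_one
  set ν := fun n => st.x n - st.v with hν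
  set μ := fun n => st.y n - st.u with hμ
  have hνr : rad ν ≤ r := by simpa [rad, hν, sub_sub_sub_cancel_right] using st.hr
  have hμr : rad μ ≤ r := by
    have h := st.rad_y.trans_le st.hr
    simpa [rad, hμ, sub_sub_sub_cancel_right] using h
  have hνl : (ulim fun n => ‖ν n‖) ≤ r := ((gainFacts X).norm_le_rad _ _ hxb st.wx).trans st.hr
  have hk' : ‖k‖ ≤ E + r := by
    refine (WL.norm_le (hyb.sub_const a') (st.wy.sub_const a')).trans ?_
    rw [ha', st.ulim_eq a]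
    refine le_of_tendsto_of_tendsto (hxb.sub_const _).tendsto_norm
      ((((hxb.sub_const st.v).tendsto_norm).const_add E).trans
        (nhds_eq_nhds_iff.2 rfl).le) (Eventually.of_forall fun n => ?_) |>.trans (by simpa [hν] using hνl)
    exact (norm_sub_le_norm_sub_add_norm_sub _ st.v _).trans (by linarith)
  have hk16 : ‖k‖ ≤ 1 / 80 := by linarith
  have two : ∀ q : sphere (0 : X) 1, 3 / 2 ≤ ‖a' - (f q : Y)‖ →
      |‖st.u - (f q : Y)‖ - ‖a' - (f q : Y)‖| ≤ E + G := by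
    intro q hq
    have hL : ‖a' - (f q : Y)‖ = ‖(a : X) - q‖ := iso_norm_sub f a q
    have hv1 : ‖st.v - q‖ ≤ ‖(a : X) - q‖ + E ∧ ‖(a : X) - q‖ - E ≤ ‖st.v - q‖ := by
      constructor
      · have := norm_sub_le_norm_sub_add_norm_sub st.v (a : X) q; linarith
      · have := norm_sub_le_norm_sub_add_norm_sub (a : X) st.v q
        rw [norm_sub_rev (a : X) st.v] at this; linarith
    have hu1 : ‖a' - (f q : Y)‖ - ‖k‖ ≤ ‖st.u - (f q : Y)‖ := by
      have := norm_sub_le_norm_sub_add_norm_sub a' st.u (f q : Y)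
      rw [norm_sub_rev a' st.u] at this; linarith
    have hyq := WL.norm_le (hyb.sub_const (f q : Y)) (st.wy.sub_const (f q : Y))
    have hxq := WL.norm_le (hxb.sub_const (q : X)) (st.wx.sub_const (q : X))
    rw [st.ulim_eq q] at hyq
    have hX := (gainFacts X).upper (st.v - q) ν r 1 (hxb.sub_const _) st.wx.sub_self hνr one_pos (by linarith)
    have hY := (gainFacts Y).upper (st.u - (f q : Y)) μ r 1 (hyb.sub_const _) st.wy.sub_self hμr one_pos
      (by linarith)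
    simp only [hν, div_one, one_mul, show ∀ (p q w : X), p - q + (w - p) = w - q by
      intros; abel] at hX
    simp only [hμ, div_one, one_mul, show ∀ (p q w : Y), p - q + (w - p) = w - q by
      intros; abel] at hY
    rw [st.ulim_eq q] at hY
    rw [abs_le]
    constructor <;> linarith
  have test : ∀ m : Y, 3 / 2 ≤ ‖m‖ → ‖a' - m‖ = 1 → |‖m + k‖ - ‖m‖| ≤ E + G := by
    intro m hm hm1
    obtain ⟨q, hq⟩ : ∃ q : sphere (0 : X) 1, (f q : Y) = a' - m :=
      ⟨f.symm ⟨a' - m, mem_sphere_zero_iff_norm.2 hm1⟩, by rw [IsometryEquiv.apply_symm_apply]⟩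
    have hm2 : a' - (f q : Y) = m := by rw [hq]; abel
    have h := two q (by rw [hm2]; exact hm)
    rwa [hm2, show st.u - (f q : Y) = m + k by rw [hq, hk]; abel] at h
  have hB : 0 ≤ E + G := by linarith
  rcases eq_or_ne k 0 with h0 | h0
  · rw [h0, norm_zero]
    exact mul_nonneg (le_trans zero_le_one (le_max_left _ _)) hB
  have hkp : 0 < ‖k‖ := norm_pos_iff.2 h0
  obtain ⟨N, hN⟩ : ∃ N : ℕ, N = ⌊1 / 40 / ‖k‖⌋₊ := ⟨_, rfl⟩
  have hN1 : (N : ℝ) * ‖k‖ ≤ 1 / 40 := by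
    rw [← le_div_iff₀ hkp, hN]; exact Nat.floor_le (by positivity)
  have hN2 : 1 / 40 < ((N : ℝ) + 1) * ‖k‖ := by
    rw [← div_lt_iff₀ hkp, hN]; exact Nat.lt_floor_add_one _
  obtain ⟨c₀, hc₀⟩ : ∃ c₀, c₀ = (6 / 5 : ℝ) • a' := ⟨_, rfl⟩
  have hc₀n : ‖c₀‖ = 6 / 5 := by
    rw [hc₀, norm_smul_of_nonneg (by norm_num), ha1, mul_one]
  have step : ∀ s : ℝ, |s| ≤ (N : ℝ) →
      |‖c₀ + s • k + k‖ - ‖c₀ + s • k‖| ≤ E + G := by
    intro s hs
    refine short_shift ha1 hk16 test ?_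
    rw [← hc₀, add_sub_cancel_left, norm_smul, Real.norm_eq_abs]
    exact (mul_le_mul_of_nonneg_right hs hkp.le).trans hN1
  have walk : ∀ j : ℕ, j ≤ N → ‖c₀ + (j : ℝ) • k‖ ≤ 6 / 5 + j * (E + G) ∧
      ‖c₀ - (j : ℝ) • k‖ ≤ 6 / 5 + j * (E + G) := by
    intro j
    induction j with
    | zero => intro _; simp [hc₀n]
    | succ j ih =>
      intro hj
      obtain ⟨hp, hm⟩ := ih (Nat.le_of_succ_le hj)
      have hjN : ((j : ℝ) + 1) ≤ (N : ℝ) := by exact_mod_cast hj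
      have hj0 : (0 : ℝ) ≤ j := Nat.cast_nonneg j
      have h1 := abs_le.1 (step j (by rw [abs_of_nonneg hj0]; linarith))
      have h2 := abs_le.1 (step (-((j : ℝ) + 1)) (by rw [abs_neg, abs_of_nonneg] <;> linarith))
      rw [show c₀ + (j : ℝ) • k + k = c₀ + ((j : ℝ) + 1) • k by module] at h1
      rw [show c₀ + (-((j : ℝ) + 1)) • k + k = c₀ - (j : ℝ) • k by module,
        show c₀ + (-((j : ℝ) + 1)) • k = c₀ - ((j : ℝ) + 1) • k by module] at h2
      push_cast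
      constructor <;> linarith
  obtain ⟨hp, hm⟩ := walk N le_rfl
  have hNB : 3 * c / 5 ≤ (N : ℝ) * (E + G) := by
    by_cases hR : 4 / 5 < (N : ℝ) * (E + G)
    · linarith
    push Not at hR
    have hdiff : ‖c₀ + (N : ℝ) • k - (c₀ - (N : ℝ) • k)‖ = 2 * ((N : ℝ) * ‖k‖) := by
      rw [show c₀ + (N : ℝ) • k - (c₀ - (N : ℝ) • k) = (2 * (N : ℝ)) • k by module,
        norm_smul_of_nonneg (by positivity)]
      ring
    have h := huc _ _ _ hp hm (by rw [hdiff]; linarith)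
    rw [show c₀ + (N : ℝ) • k + (c₀ - (N : ℝ) • k) = (2 : ℝ) • c₀ by module,
      norm_smul_of_nonneg (by norm_num), hc₀n] at h
    have h2 : 0 ≤ c * ((N : ℝ) * (E + G)) := mul_nonneg hc.le (by positivity)
    linarith
  have h1 : (N : ℝ) * ‖k‖ * (E + G) ≤ 1 / 40 * (E + G) := mul_le_mul_of_nonneg_right hN1 hB
  have h2 : 3 * c / 5 * ‖k‖ ≤ (N : ℝ) * (E + G) * ‖k‖ := mul_le_mul_of_nonneg_right hNB hkp.le
  have h3 : ‖k‖ ≤ 1 / (24 * c) * (E + G) := by
    rw [div_mul_eq_mul_div, one_mul, le_div_iff₀ (by positivity)]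
    linarith
  exact h3.trans (mul_le_mul_of_nonneg_right (le_max_right _ _) hB)

end Vale.Agent.P084.UC
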