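import Vale.Agent.P084.UC.Step
import Vale.Agent.P084.UC.Near
import Vale.Agent.P084.Smooth.Key
import Vale.Agent.P084.Smooth.GainBasic

/-!
P084 for uniformly convex spaces: alternate translations along a good chord.
-/

open Filter Topology Metric

namespace Vale.Agent.P084.UC

open Vale.Agent.P084.Smooth

universe u v

variable {X : Type u} [NormedAddCommGroup X] [NormedSpace ℝ X]
  {Y : Type v} [NormedAddCommGroup Y] [NormedSpace ℝ Y]

theorem chordDir_norm {z w : X} (h : z - w ≠ 0) : ‖chordDir z w‖ = 1 := norm_smul_inv_norm h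

theorem J_chordDir {z w : X} (h : z - w ≠ 0) : J (z - w) (chordDir z w) = 1 := by
  rw [chordDir, map_smul, smul_eq_mul, J_self, inv_mul_cancel₀ (norm_ne_zero_iff.2 h)]

/-- no shrinking costs nothing -/
theorem gain_no_shrink (G₀ : GainFacts X) {d : X} (hd : ‖d‖ = 1) (r s : ℝ) :
    ∀ ν : ℕ → X, Bdd ν → WL ν 0 → rad ν ≤ (1 - 1) * r / s →
      (ulim fun n => ‖d + ν n‖) ≤ 1 + 0 := by
  intro ν hb hw hν
  have h1 := G₀.upper d ν _ 1 hb hw hν one_pos hd.ge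
  have h0 := G₀.le_self 0 le_rfl
  simp only [sub_self, zero_mul, zero_div, div_one, one_mul, hd] at h1 h0
  linarith

/-- one translation in the source -/
theorem source_step [UniformConvexSpace X] [CompleteSpace Y] [UniformConvexSpace Y]
    (hNear : NearPin.{u, v} X) {l : ℝ} (hl : 0 < l) :
    ∃ σ : ℝ, 0 < σ ∧ ∃ A : ℝ, 1 ≤ A ∧ ∀ (f : sphere (0 : X) 1 ≃ᵢ sphere (0 : Y) 1)
      (z w : sphere (0 : X) 1), l ≤ ‖(z : X) - w‖ → ∀ (r G c g : ℝ) (st : St f r), 0 ≤ r → r ≤ σ →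
        gain X r ≤ G → gain Y r ≤ G → 0 < G → A * (‖st.v - z‖ + G) ≤ σ → 0 ≤ c → c ≤ 1 →
        (∀ ν : ℕ → X, Bdd ν → WL ν 0 → rad ν ≤ (1 - c) * r / (l / 2) →
          (ulim fun n => ‖chordDir (z : X) w + ν n‖) ≤ 1 + g) →
        ∃ (st' : St f (c * r)) (s : ℝ), st'.v = st.v - s • chordDir (z : X) w ∧
          ‖st'.v - w‖ + G ≤ A * (‖st.v - z‖ + G) ∧
          ‖st'.u - (f w : Y)‖ + G ≤ A * (‖st.v - z‖ + G) ∧
          ‖st.u - st'.u‖ ≤ s + l / 2 * g := by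
  obtain ⟨κ, hκ, hκ1, htr⟩ := chord_slope_J (X := X) hl
  obtain ⟨σ₁, hσ₁, hstep⟩ := chord_shift (gainFacts X) hl hκ hκ1 htr
  obtain ⟨σ₂, hσ₂, K, hK, hnear⟩ := hNear Y
  have GX := gainFacts X
  have GY := gainFacts Y
  refine ⟨min σ₁ σ₂, lt_min hσ₁ hσ₂, (K + 1) * (2 + 4 / κ), ?_, ?_⟩
  · have : 0 ≤ 4 / κ := by positivity
    nlinarith
  intro f z w hzw r G c g st hr hrσ hgX hgY hG hsmall hc hc1 hgain
  simp only [le_min_iff] at hrσ hsmall
  set E := ‖st.v - z‖ with hE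
  have hE0 : 0 ≤ E := norm_nonneg _
  have h4 : 0 ≤ 4 / κ := by positivity
  have hEG : E + G ≤ (K + 1) * (2 + 4 / κ) * (E + G) :=
    le_mul_of_one_le_left (by linarith) (by nlinarith)
  obtain ⟨y, s, hy1, hyw, hyr, hyb, hyd⟩ := hstep z w (sph_norm z) (sph_norm w) hzw
    st.x st.v r G c g hgain st.x_one st.wx st.hr hr hrσ.1 hgX hG (by linarith) (by linarith) hc hc1
  obtain ⟨st', hx', hv'⟩ := exists_st' (f := f) hy1 hyw hyr
  subst hx'
  rw [← hv'] at hyb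
  set E₁ := ‖st'.v - w‖
  have hE₁ : E₁ + G ≤ (2 + 4 / κ) * (E + G) := by rw [add_mul, two_mul]; linarith
  have hB : (2 + 4 / κ) * (E + G) ≤ (K + 1) * (2 + 4 / κ) * (E + G) := by
    rw [mul_assoc]; exact le_mul_of_one_le_left (by positivity) (by linarith)
  have hcr : c * r ≤ r := mul_le_of_le_one_left hr hc1
  have hcr0 : 0 ≤ c * r := mul_nonneg hc hr
  have hn := hnear f (c * r) G st' w hcr0 (hcr.trans hrσ.2) ((GX.mono _ _ hcr0 hcr).trans hgX)
    ((GY.mono _ _ hcr0 hcr).trans hgY) (by linarith) (by linarith)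
  refine ⟨st', s, hv', hE₁.trans hB, ?_, ?_⟩
  · have : K * (E₁ + G) ≤ K * ((2 + 4 / κ) * (E + G)) :=
      mul_le_mul_of_nonneg_left hE₁ (by linarith)
    have : G ≤ (2 + 4 / κ) * (E + G) := by nlinarith
    rw [mul_assoc, add_mul, one_mul]
    linarith
  · have hb : Bdd fun n => st.y n - st'.y n := by
      simpa [sub_eq_add_neg] using
        (bdd_sphere st.y_one).add ((bdd_sphere st'.y_one).smul (-1 : ℝ))
    refine (WL.norm_le hb fun φ => ?_).trans (le_of_eq_of_le ?_ hyd)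
    · simpa [map_sub] using (st.wy φ).sub (st'.wy φ)
    · refine ulim_congr ((st.img.and st'.img).mono fun n hn => ?_)
      obtain ⟨⟨a, ha, ha'⟩, b, hb', hb''⟩ := hn
      simp only [ha, ha', hb', hb'', iso_norm_sub]

/-- one exact translation in the target, towards `z` -/
theorem target_step [CompleteSpace X] [UniformConvexSpace X] [UniformConvexSpace Y]
    (hNear : NearPin.{v, u} Y) {l : ℝ} (hl : 0 < l) :
    ∃ σ : ℝ, 0 < σ ∧ ∃ A : ℝ, 1 ≤ A ∧ ∀ (f : sphere (0 : X) 1 ≃ᵢ sphere (0 : Y) 1)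
      (z w : sphere (0 : X) 1), l ≤ ‖(z : X) - w‖ → ∀ (r G : ℝ) (st : St f r), 0 ≤ r → r ≤ σ →
        gain X r ≤ G → gain Y r ≤ G → 0 < G → A * (‖st.u - (f w : Y)‖ + G) ≤ σ →
        ∃ st' : St f r, ‖st'.v - z‖ + G ≤ A * (‖st.u - (f w : Y)‖ + G) ∧
          phi z w st ≤ phi z w st' := by
  obtain ⟨σ, hσ, A, hA, hstep⟩ := source_step (X := Y) (Y := X) hNear hl
  refine ⟨σ, hσ, A, hA, fun f z w hzw r G st hr hrσ hgX hgY hG hsm => ?_⟩
  have hzw' : l ≤ ‖(f w : Y) - f z‖ := by rwa [iso_norm_sub, norm_sub_rev]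
  have hY0 : (f w : Y) - f z ≠ 0 := norm_pos_iff.1 (hl.trans_le hzw')
  obtain ⟨st₂, s, hv, -, hu, hd⟩ := hstep f.symm (f w) (f z) hzw' r G 1 0 st.swap hr hrσ hgY hgX hG
    hsm zero_le_one le_rfl (gain_no_shrink (gainFacts Y) (chordDir_norm hY0) r (l / 2))
  obtain ⟨st₃, h3v, h3u⟩ : ∃ st₃ : St f r, st₃.v = st₂.u ∧ st₃.u = st₂.v :=
    ⟨⟨st₂.y, st₂.x, st₂.u, st₂.v, st₂.swap.img, st₂.wy, st₂.wx,
      (st₂.swap.hr).trans (one_mul r).le⟩, rfl, rfl⟩
  refine ⟨st₃, ?_, ?_⟩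
  · rw [IsometryEquiv.symm_apply_apply] at hu
    rw [h3v]; exact hu
  · have hY0' : (f z : Y) - f w ≠ 0 := by rw [← neg_ne_zero, neg_sub]; exact hY0
    set ψ := J ((f z : Y) - f w)
    set φ := J ((z : X) - w)
    have e1 : ψ st₃.u = ψ st.u + s := by
      have e : chordDir (f w : Y) (f z) = -chordDir (f z : Y) (f w) := by
        rw [chordDir, chordDir, norm_sub_rev, ← smul_neg, neg_sub]
      rw [h3u, hv, show st.swap.v = st.u from rfl, e, map_sub, map_smul, map_neg,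
        J_chordDir hY0', smul_eq_mul]
      ring
    have e2 : φ (st₂.u - st.v) ≤ s := by
      refine (J_le _ _).trans ?_
      rw [norm_sub_rev]
      exact hd.trans (by linarith)
    rw [map_sub, ← h3v] at e2
    simp only [phi]
    linarith

/-- two translations, back to the first endpoint -/
theorem double_step [CompleteSpace X] [CompleteSpace Y] [UniformConvexSpace X]
    [UniformConvexSpace Y] (hNX : NearPin.{u, v} X) (hNY : NearPin.{v, u} Y) {l : ℝ} (hl : 0 < l) :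
    ∃ σ : ℝ, 0 < σ ∧ ∃ A : ℝ, 1 ≤ A ∧ ∀ (f : sphere (0 : X) 1 ≃ᵢ sphere (0 : Y) 1)
      (z w : sphere (0 : X) 1), l ≤ ‖(z : X) - w‖ → ∀ (r G c g : ℝ) (st : St f r), 0 ≤ r → r ≤ σ →
        gain X r ≤ G → gain Y r ≤ G → 0 < G → A * (‖st.v - z‖ + G) ≤ σ → 0 ≤ c → c ≤ 1 →
        (∀ ν : ℕ → X, Bdd ν → WL ν 0 → rad ν ≤ (1 - c) * r / (l / 2) →
          (ulim fun n => ‖chordDir (z : X) w + ν n‖) ≤ 1 + g) →
        ∃ st' : St f (c * r), ‖st'.v - z‖ + G ≤ A * (‖st.v - z‖ + G) ∧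
          phi z w st ≤ phi z w st' + l / 2 * g := by
  obtain ⟨σ₁, hσ₁, A₁, hA₁, h₁⟩ := source_step (X := X) (Y := Y) hNX hl
  obtain ⟨σ₂, hσ₂, A₂, hA₂, h₂⟩ := target_step (X := X) (Y := Y) hNY hl
  refine ⟨min σ₁ σ₂, lt_min hσ₁ hσ₂, A₂ * A₁, by nlinarith, ?_⟩
  intro f z w hzw r G c g st hr hrσ hgX hgY hG hsmall hc hc1 hgain
  simp only [le_min_iff] at hrσ hsmall
  have hX0 : 0 ≤ A₁ * (‖st.v - z‖ + G) := by positivity
  have hs1 : A₁ * (‖st.v - z‖ + G) ≤ A₂ * A₁ * (‖st.v - z‖ + G) := by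
    rw [mul_assoc]; exact le_mul_of_one_le_left hX0 hA₂
  obtain ⟨st₁, s, hv, -, hu₁, hd⟩ :=
    h₁ f z w hzw r G c g st hr hrσ.1 hgX hgY hG (by linarith) hc hc1 hgain
  have hcr : c * r ≤ r := mul_le_of_le_one_left hr hc1
  have hcr0 : 0 ≤ c * r := mul_nonneg hc hr
  have hs2 : A₂ * (‖st₁.u - (f w : Y)‖ + G) ≤ A₂ * A₁ * (‖st.v - z‖ + G) := by
    rw [mul_assoc]; exact mul_le_mul_of_nonneg_left hu₁ (by linarith)
  obtain ⟨st₂, hv₂, hp₂⟩ := h₂ f z w hzw (c * r) G st₁ hcr0 (hcr.trans hrσ.2)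
    (((gainFacts X).mono _ _ hcr0 hcr).trans hgX) (((gainFacts Y).mono _ _ hcr0 hcr).trans hgY) hG
    (by linarith)
  refine ⟨st₂, hv₂.trans hs2, ?_⟩
  have hp₁ : phi z w st ≤ phi z w st₁ + l / 2 * g := by
    have e1 : J ((z : X) - w) st₁.v = J ((z : X) - w) st.v - s := by
      rw [hv, map_sub, map_smul, J_chordDir (norm_pos_iff.1 (hl.trans_le hzw)), smul_eq_mul,
        mul_one]
    have e2 := (J_le ((f z : Y) - f w) (st.u - st₁.u)).trans hd
    rw [map_sub] at e2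
    simp only [phi]
    linarith
  linarith

/-- repeated double steps -/
theorem iterate {f : sphere (0 : X) 1 ≃ᵢ sphere (0 : Y) 1} {z w : sphere (0 : X) 1}
    {A σ G c R cost : ℝ} (hA : 1 ≤ A) (hG : 0 < G) (hc : 0 ≤ c) (hc1 : c ≤ 1)
    (hds : ∀ (ρ : ℝ) (s : St f ρ), 0 ≤ ρ → ρ ≤ R → A * (‖s.v - z‖ + G) ≤ σ →
      ∃ (ρ' : ℝ) (s' : St f ρ'), 0 ≤ ρ' ∧ ρ' ≤ c * ρ ∧
        ‖s'.v - z‖ + G ≤ A * (‖s.v - z‖ + G) ∧ phi z w s ≤ phi z w s' + cost) :
    ∀ (m : ℕ) (ρ : ℝ) (s : St f ρ), 0 ≤ ρ → ρ ≤ R → A ^ m * (‖s.v - z‖ + G) ≤ σ →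
      ∃ (ρ' : ℝ) (s' : St f ρ'), 0 ≤ ρ' ∧ ρ' ≤ c ^ m * ρ ∧
        ‖s'.v - z‖ + G ≤ A ^ m * (‖s.v - z‖ + G) ∧ phi z w s ≤ phi z w s' + m * cost := by
  intro m
  induction m with
  | zero => exact fun ρ s h0 _ _ => ⟨ρ, s, h0, by simp, by simp, by simp⟩
  | succ m ih =>
    intro ρ s h0 hρ hsm
    have hEG : 0 ≤ ‖s.v - z‖ + G := by positivity
    have hA1 : A * (‖s.v - z‖ + G) ≤ A ^ (m + 1) * (‖s.v - z‖ + G) :=
      mul_le_mul_of_nonneg_right (le_self_pow₀ hA (by omega)) hEG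
    obtain ⟨ρ₁, s₁, h₁, hρ₁, hs₁, hp₁⟩ := hds ρ s h0 hρ (hA1.trans hsm)
    have hA2 : A ^ m * (‖s₁.v - z‖ + G) ≤ A ^ (m + 1) * (‖s.v - z‖ + G) := by
      rw [pow_succ, mul_assoc]; exact mul_le_mul_of_nonneg_left hs₁ (by positivity)
    have hρR : ρ₁ ≤ R := (hρ₁.trans (mul_le_of_le_one_left h0 hc1)).trans hρ
    obtain ⟨ρ', s', h0', hρ', hv', hp'⟩ := ih ρ₁ s₁ h₁ hρR (hA2.trans hsm)
    refine ⟨ρ', s', h0', ?_, hv'.trans hA2, ?_⟩
    · rw [pow_succ, mul_assoc]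
      exact hρ'.trans (mul_le_mul_of_nonneg_left hρ₁ (by positivity))
    · push_cast
      linarith

theorem count_bound {θ ε : ℝ} (hθ : 0 < θ) (hθ1 : θ ≤ 1) (hε : 0 < ε) (hε1 : ε ≤ 1 / 4) :
    ∃ n : ℕ, (1 - ε) ^ (2 * n) ≤ θ ∧ (n : ℝ) * ε * θ ≤ 2 := by
  set n := ⌈1 / (θ * ε)⌉₊ with hn
  have hn1 : 1 / (θ * ε) ≤ n := Nat.le_ceil _
  have hn2 : (n : ℝ) ≤ 1 / (θ * ε) + 1 := (Nat.ceil_lt_add_one (by positivity)).le
  refine ⟨n, ?_, ?_⟩
  · have hc0 : 0 ≤ 1 - ε := by linarith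
    have h1 : (1 : ℝ) + (2 * n : ℕ) * ε ≤ (1 + ε) ^ (2 * n) :=
      one_add_mul_le_pow (by linarith) _
    have h2 : ((1 - ε) * (1 + ε)) ^ (2 * n) ≤ 1 := pow_le_one₀ (by positivity) (by nlinarith)
    rw [mul_pow] at h2
    rw [div_le_iff₀ (by positivity)] at hn1
    push_cast at h1
    have h3 : (1 - ε) ^ (2 * n) * (1 + 2 * n * ε) ≤ 1 :=
      (mul_le_mul_of_nonneg_left h1 (by positivity)).trans h2
    nlinarith [pow_nonneg hc0 (2 * n)]
  · have := mul_le_mul_of_nonneg_right hn2 (show 0 ≤ ε * θ by positivity)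
    rw [add_mul, one_mul, show 1 / (θ * ε) * (ε * θ) = 1 by field_simp] at this
    have : ε * θ ≤ 1 := mul_le_one₀ (by linarith) hθ.le hθ1
    linarith

/-- the estimate at a state with a small radius next to an endpoint -/
theorem base (GX : GainFacts X) {f : sphere (0 : X) 1 ≃ᵢ sphere (0 : Y) 1}
    {z w : sphere (0 : X) 1} {a b ρ : ℝ} (hzw : (z : X) - w ≠ 0) (s : St f ρ)
    (hflat : ‖chordDir (z : X) w + (2 / ‖(z : X) - w‖) • (s.v - z)‖
        + ‖chordDir (z : X) w - (2 / ‖(z : X) - w‖) • (s.v - z)‖ ≤ 2 + a)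
    (hgain : ‖(z : X) - w‖ / 2 * gain X (ρ / (‖(z : X) - w‖ / 2)) ≤ b) :
    phi z w s - (J ((f z : Y) - f w) (f z : Y) - J ((z : X) - w) (z : X))
      ≤ ‖(z : X) - w‖ / 2 * a + b := by
  set L := ‖(z : X) - w‖ with hL
  have hL0 : 0 < L := norm_pos_iff.2 hzw
  set d := chordDir (z : X) w with hd
  have hdn : ‖d‖ = 1 := chordDir_norm hzw
  set φ := J ((z : X) - w)
  set h := s.v - (z : X)
  have hφd : φ d = 1 := J_chordDir hzw
  have h1 : ‖(L / 2) • d + h‖ ≤ L / 2 + φ h + L / 2 * a := by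
    have h2 : φ (d - (2 / L) • h) ≤ ‖d - (2 / L) • h‖ := J_le _ _
    rw [map_sub, map_smul, smul_eq_mul, hφd] at h2
    have e : (L / 2) • d + h = (L / 2) • (d + (2 / L) • h) := by
      rw [smul_add, smul_smul, show L / 2 * (2 / L) = 1 by field_simp, one_smul]
    rw [e, norm_smul_of_nonneg (by positivity)]
    refine (mul_le_mul_of_nonneg_left (show ‖d + (2 / L) • h‖ ≤ 1 + 2 / L * φ h + a by linarith)
      (by positivity)).trans_eq ?_
    field_simp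
  have hLd : L • d = (z : X) - w := smul_inv_smul₀ hL0.ne' _
  have hxb : Bdd s.x := bdd_sphere s.x_one
  have hn : ‖(L / 2) • d‖ = L / 2 := by rw [norm_smul_of_nonneg (by positivity), hdn, mul_one]
  have hup := GX.upper ((L / 2) • d) (fun n => s.x n - s.v) ρ (L / 2) (hxb.sub_const _)
    s.wx.sub_self (by simpa [rad, sub_sub_sub_cancel_right] using s.hr) (by positivity) hn.ge
  rw [hn] at hup
  have hxw : (ulim fun n => ‖s.x n - (w : X)‖) ≤ (L / 2 + φ h + L / 2 * a) + (L / 2 + b) := by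
    have h3 : (ulim fun n => ‖s.x n - (w : X)‖)
        ≤ ‖(L / 2) • d + h‖ + ulim fun n => ‖(L / 2) • d + (s.x n - s.v)‖ := by
      refine le_of_tendsto_of_tendsto' (hxb.sub_const _).tendsto_norm
        (((bdd_const _).add (hxb.sub_const s.v)).tendsto_norm.const_add _) fun n => ?_
      have e : s.x n - (w : X) = ((L / 2) • d + h) + ((L / 2) • d + (s.x n - s.v)) := by
        calc s.x n - (w : X) = ((z : X) - w) + h + (s.x n - s.v) := by
              simp only [h]; abel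
          _ = _ := by rw [← hLd]; module
      rw [e]; exact norm_add_le _ _
    linarith
  have hyw := WL.norm_le ((bdd_sphere s.y_one).sub_const (f w : Y)) (s.wy.sub_const (f w : Y))
  rw [s.ulim_eq w] at hyw
  have hψu := J_le ((f z : Y) - f w) (s.u - (f w : Y))
  have eY : J ((f z : Y) - f w) (f z : Y) - J ((f z : Y) - f w) (f w : Y) = L := by
    rw [← map_sub, J_self, iso_norm_sub]
  rw [map_sub] at hψu
  rw [show φ h = φ s.v - φ (z : X) from map_sub φ s.v (z : X)] at hxw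
  simp only [phi]
  linarith

theorem key_upper [CompleteSpace X] [CompleteSpace Y] [UniformConvexSpace X] [UniformConvexSpace Y]
    (hNX : NearPin.{u, v} X) (hNY : NearPin.{v, u} Y) {l η : ℝ} (hl : 0 < l) (hl1 : l ≤ 1)
    (hη : 0 < η) :
    ∃ δ : ℝ, 0 < δ ∧ ∀ e : ℝ, 0 < e → e ≤ 1 / 2 → ∀ M : ℝ, 0 ≤ M → ∃ K : ℝ, 0 < K ∧
      ∃ r₀ : ℝ, 0 < r₀ ∧ ∀ (f : sphere (0 : X) 1 ≃ᵢ sphere (0 : Y) 1) (z w : sphere (0 : X) 1),
        l ≤ ‖(z : X) - w‖ → ∀ (r G : ℝ) (st : St f r), 0 < r → r ≤ r₀ → gain X r ≤ G →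
          gain Y r ≤ G → 0 < G → G ≤ r →
            Good (chordDir (z : X) w) (e * r) (K * G) (δ * e * G) (δ * G) →
              ‖st.v - z‖ ≤ M * G →
                J ((f z : Y) - f w) (st.u - (f z : Y)) - J ((z : X) - w) (st.v - z) ≤ η * G := by
  obtain ⟨σ, hσ, A, hA, hds⟩ := double_step (X := X) (Y := Y) hNX hNY hl
  have GX := gainFacts X
  have GY := gainFacts Y
  set θ := min (η / 3) (l / 2) with hθ
  have hθ0 : 0 < θ := lt_min (by positivity) (by positivity)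
  have hθl : θ ≤ l / 2 := min_le_right _ _
  have hθη : θ ≤ η / 3 := min_le_left _ _
  have hδ0 : 0 < θ * η / 12 := by positivity
  refine ⟨θ * η / 12, hδ0, fun e he he1 M hM => ?_⟩
  set δ := θ * η / 12 with hδ
  set ε := e * (l / 2) with hε
  have hε0 : 0 < ε := by positivity
  have hε1 : ε ≤ 1 / 4 := by
    have := mul_le_mul he1 (show l / 2 ≤ 1 / 2 by linarith) (by positivity) (by positivity)
    linarith
  obtain ⟨n, hpow, hcount⟩ := count_bound hθ0 (by linarith) hε0 hε1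
  set B := A ^ (2 * n) * (M + 1) with hB
  have hB0 : 0 < B := by positivity
  refine ⟨2 * B / l, by positivity, min σ (σ / B), by positivity, ?_⟩
  intro f z w hzw r G st hr hr₀ hgX hgY hG hGr hgood hE
  simp only [le_min_iff] at hr₀
  obtain ⟨hr₁, hr₂⟩ := hr₀
  rw [le_div_iff₀ hB0] at hr₂
  have hcr : (1 - (1 - ε)) * r / (l / 2) = e * r := by rw [hε]; field_simp; ring
  have hc0 : 0 ≤ 1 - ε := by linarith
  have hds' : ∀ (ρ : ℝ) (s : St f ρ), 0 ≤ ρ → ρ ≤ r → A * (‖s.v - z‖ + G) ≤ σ →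
      ∃ (ρ' : ℝ) (s' : St f ρ'), 0 ≤ ρ' ∧ ρ' ≤ (1 - ε) * ρ ∧
        ‖s'.v - z‖ + G ≤ A * (‖s.v - z‖ + G) ∧
          phi z w s ≤ phi z w s' + l / 2 * (δ * e * G) := by
    intro ρ s h0 hρ hsm
    have hle : (1 - (1 - ε)) * ρ / (l / 2) ≤ e * r := by
      rw [← hcr]
      exact div_le_div_of_nonneg_right (mul_le_mul_of_nonneg_left hρ (by linarith)) (by positivity)
    obtain ⟨s', h1, h2⟩ := hds f z w hzw ρ G (1 - ε) (δ * e * G) s h0 (hρ.trans hr₁)
      ((GX.mono _ _ h0 hρ).trans hgX) ((GY.mono _ _ h0 hρ).trans hgY) hG hsm hc0 (by linarith)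
      (fun ν hb hw hν => hgood.gain_le ν hb hw (hν.trans hle))
    exact ⟨_, s', by positivity, le_rfl, h1, h2⟩
  have it := iterate (R := r) hA hG hc0 (by linarith) hds'
  have hEG : ‖st.v - z‖ + G ≤ (M + 1) * G := by linarith
  have hBG : A ^ (2 * n) * (‖st.v - z‖ + G) ≤ B * G := by
    rw [hB, mul_assoc]; exact mul_le_mul_of_nonneg_left hEG (by positivity)
  have hBr : B * G ≤ B * r := mul_le_mul_of_nonneg_left hGr hB0.le
  obtain ⟨ρ, s, hρ0, hρ, hsv, hp⟩ := it (2 * n) r st hr.le le_rfl (by linarith)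
  have hρθ : ρ ≤ θ * r := hρ.trans (mul_le_mul_of_nonneg_right hpow hr.le)
  have hcostn : ((2 * n : ℕ) : ℝ) * (l / 2 * (δ * e * G)) ≤ η / 3 * G := by
    have h := mul_le_mul_of_nonneg_right hcount (show 0 ≤ 2 * (η / 12 * G) by positivity)
    have e1 : ((2 * n : ℕ) : ℝ) * (l / 2 * (δ * e * G)) = n * ε * θ * (2 * (η / 12 * G)) := by
      rw [hδ, hε]; push_cast; ring
    have : 0 ≤ η * G := by positivity
    linarith
  have hh1 : ‖s.v - z‖ ≤ B * G := by linarith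
  have hzw0 : (z : X) - w ≠ 0 := norm_pos_iff.1 (hl.trans_le hzw)
  set L := ‖(z : X) - w‖
  have hflat := hgood.flat ((2 / L) • (s.v - (z : X))) (by
    rw [norm_smul_of_nonneg (by positivity)]
    calc 2 / L * ‖s.v - (z : X)‖ ≤ 2 / l * (B * G) :=
          mul_le_mul (div_le_div_of_nonneg_left zero_le_two hl hzw) hh1 (norm_nonneg _)
            (by positivity)
      _ = 2 * B / l * G := by ring)
  have hgain : L / 2 * gain X (ρ / (L / 2)) ≤ η / 3 * G := by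
    have h1 : ρ / (L / 2) ≤ θ / (L / 2) * r := by
      rw [div_mul_eq_mul_div]; exact div_le_div_of_nonneg_right hρθ (by positivity)
    have h2 := (GX.mono _ _ (by positivity) h1).trans
      (GX.mul_le (θ / (L / 2)) r (by positivity) ((div_le_one (by positivity)).2 (by linarith))
        hr.le)
    refine (mul_le_mul_of_nonneg_left h2 (by positivity)).trans ?_
    rw [← mul_assoc, mul_div_cancel₀ _ (by positivity)]
    exact mul_le_mul hθη hgX (GX.nonneg r hr.le) (by positivity)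
  have hb := base GX hzw0 s hflat hgain
  have hLa : L / 2 * (δ * G) ≤ η / 3 * G := by
    have hL2 : L / 2 ≤ 1 := by
      have := (norm_sub_le (z : X) w).trans (by rw [sph_norm, sph_norm])
      linarith
    have hd3 : δ ≤ η / 3 := by rw [hδ]; nlinarith
    exact (mul_le_of_le_one_left (by positivity) hL2).trans
      (mul_le_mul_of_nonneg_right hd3 hG.le)
  simp only [phi] at hp hb
  rw [map_sub (J ((f z : Y) - f w)) st.u (f z : Y), map_sub (J ((z : X) - w)) st.v (z : X)]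
  linarith

/-- block D -/
theorem keyPin (X : Type u) [NormedAddCommGroup X] [NormedSpace ℝ X] : KeyPin.{u, v} X := by
  intro Y _ _ _ _ _ _ l η hl hl1 hη
  have hNX : NearPin.{u, v} X := nearPin
  have hNY : NearPin.{v, u} Y := nearPin
  obtain ⟨δ, hδ, hup⟩ := key_upper (X := X) (Y := Y) hNX hNY hl hl1 hη
  obtain ⟨σ₁, hσ₁, K, hK, hnear⟩ := hNX Y
  obtain ⟨σ₂, hσ₂, A, hA, htgt⟩ := target_step (X := X) (Y := Y) hNY hl
  refine ⟨δ, hδ, fun e he he1 M hM => ?_⟩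
  obtain ⟨K₁, hK₁, r₁, hr₁, h₁⟩ := hup e he he1 M hM
  set M' := A * (K * (M + 1) + 1) with hM'
  have hM'0 : 0 ≤ M' := by positivity
  obtain ⟨K₂, hK₂, r₂, hr₂, h₂⟩ := hup e he he1 M' hM'0
  refine ⟨max K₁ K₂, lt_max_of_lt_left hK₁,
    min (min r₁ r₂) (min (min σ₁ (σ₁ / (M + 1))) (min σ₂ (σ₂ / (M' + 1)))), by positivity, ?_⟩
  intro f hodd z w hzw r G st hr hr₀ hgX hgY hG hGr hgood hE
  simp only [le_min_iff] at hr₀
  obtain ⟨⟨hra, hrb⟩, ⟨hrc, hrc'⟩, hrd, hrd'⟩ := hr₀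
  rw [le_div_iff₀ (by positivity)] at hrc' hrd'
  have mk : ∀ K' : ℝ, K' ≤ max K₁ K₂ →
      Good (chordDir (z : X) w) (e * r) (K' * G) (δ * e * G) (δ * G) := fun K' hK' =>
    ⟨hgood.norm_one, hgood.gain_le,
      fun h hh => hgood.flat h (hh.trans (mul_le_mul_of_nonneg_right hK' hG.le))⟩
  have up := h₁ f z w hzw r G st hr hra hgX hgY hG hGr (mk K₁ (le_max_left _ _)) hE
  set zn : sphere (0 : X) 1 := ⟨-(z : X), by simp⟩ with hzn
  set wn : sphere (0 : X) 1 := ⟨-(w : X), by simp⟩ with hwn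
  have hfz : (f zn : Y) = -(f z : Y) := hodd z zn rfl
  have hfw : (f wn : Y) = -(f w : Y) := hodd w wn rfl
  obtain ⟨sn, hsnv, hsnu⟩ : ∃ sn : St f r, sn.v = -st.v ∧ sn.u = -st.u := by
    refine ⟨⟨fun n => -st.x n, fun n => -st.y n, -st.v, -st.u, ?_, ?_, ?_, ?_⟩, rfl, rfl⟩
    · filter_upwards [st.img] with n ⟨a, ha, ha'⟩
      exact ⟨⟨-(a : X), by simp⟩, by simp [ha], by rw [hodd a _ rfl, ha']⟩
    · intro φ; simpa using (st.wx φ).neg
    · intro φ; simpa using (st.wy φ).neg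
    · refine le_of_eq_of_le (ulim_congr (Eventually.of_forall fun n => ulim_congr
        (Eventually.of_forall fun m => ?_))) st.hr
      dsimp only
      rw [show -st.x n - -st.x m = -(st.x n - st.x m) by abel, norm_neg]
  have hu : ‖st.u - (f z : Y)‖ ≤ K * (M + 1) * G := by
    refine (hnear f r G st z hr.le hrc hgX hgY (hGr.trans hrc) ?_).trans ?_
    · exact hE.trans ((mul_le_mul (show M ≤ M + 1 by linarith) hGr hG.le (by linarith)).trans
        (by linarith))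
    · rw [mul_assoc]; exact mul_le_mul_of_nonneg_left (by linarith) (by linarith)
  have hun : ‖sn.u - (f zn : Y)‖ = ‖st.u - (f z : Y)‖ := by
    rw [hsnu, hfz, show -st.u - -(f z : Y) = -(st.u - (f z : Y)) by abel, norm_neg]
  have hAG : A * (‖sn.u - (f zn : Y)‖ + G) ≤ M' * G := by
    rw [hun, hM', mul_assoc]; exact mul_le_mul_of_nonneg_left (by linarith) (by linarith)
  have hwz : l ≤ ‖(wn : X) - zn‖ := by
    rw [show (wn : X) - zn = (z : X) - w by simp only [hwn, hzn]; abel]; exact hzw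
  obtain ⟨s', hs'v, hs'p⟩ := htgt f wn zn hwz r G sn hr.le hrd hgX hgY hG (hAG.trans
    ((mul_le_mul (le_refl M') hGr hG.le hM'0).trans (by linarith)))
  have e1 : (wn : X) - zn = (z : X) - w := by simp only [hwn, hzn]; abel
  have e2 : (f wn : Y) - f zn = (f z : Y) - f w := by rw [hfz, hfw]; abel
  have lo := h₂ f wn zn hwz r G s' hr hrb hgX hgY hG hGr (by
    rw [show chordDir (wn : X) zn = chordDir (z : X) w by rw [chordDir, chordDir, e1]]
    exact mk K₂ (le_max_right _ _)) (by linarith)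
  simp only [phi, e1, e2, hsnu, hsnv] at hs'p
  rw [e1, e2, hfw, show (wn : X) = -(w : X) from rfl] at lo
  set ψ := J ((f z : Y) - f w)
  set φ := J ((z : X) - w)
  have eX : φ (z : X) - φ (w : X) = ‖(z : X) - w‖ := by rw [← map_sub, J_self]
  have eY : ψ (f z : Y) - ψ (f w : Y) = ‖(z : X) - w‖ := by
    rw [← map_sub, J_self, iso_norm_sub]
  simp only [map_sub, map_neg] at up lo hs'p ⊢
  rw [abs_le]
  constructor <;> linarith

end Vale.Agent.P084.UC
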