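import Vale.Agent.P084.UC.End
import Vale.Agent.P084.UC.Dense
import Vale.Agent.P084.UC.Key
import Vale.Agent.P084.Smooth.Geom

/-!
P084 for uniformly convex spaces: from the blocks to the Mazur-Ulam property.
-/

open Filter Topology Metric

namespace Vale.Agent.P084.UC

open Vale.Agent.P084.Smooth

universe u v

variable {X : Type u} [NormedAddCommGroup X] [NormedSpace ℝ X]
  {Y : Type v} [NormedAddCommGroup Y] [NormedSpace ℝ Y]

theorem AddClose.mono {f : sphere (0 : X) 1 ≃ᵢ sphere (0 : Y) 1} {η η' : ℝ} (h : AddClose f η)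
    (hη : η ≤ η') : AddClose f η' :=
  fun a b c α β γ h1 h2 h3 h4 => (h a b c α β γ h1 h2 h3 h4).trans hη

theorem linear_of_addClose {f : sphere (0 : X) 1 ≃ᵢ sphere (0 : Y) 1}
    (h : ∀ η, 0 < η → AddClose f η) :
    ∃ T : X ≃ₗᵢ[ℝ] Y, ∀ x : sphere (0 : X) 1, T x = (f x : Y) := by
  classical
  set F : X → Y := fun x => if hx : x = 0 then 0 else
    ‖x‖ • (f ⟨‖x‖⁻¹ • x, mem_sphere_zero_iff_norm.2 (norm_unit (norm_pos_iff.2 hx))⟩ : Y) with hF
  have hF0 : F 0 = 0 := dif_pos rfl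
  have hFs : ∀ a : sphere (0 : X) 1, F a = (f a : Y) := by
    intro a
    have hne : (a : X) ≠ 0 := norm_ne_zero_iff.1 (by rw [sph_norm a]; exact one_ne_zero)
    simp only [hF, dif_neg hne]
    have hpt : (⟨‖(a : X)‖⁻¹ • (a : X),
        mem_sphere_zero_iff_norm.2 (norm_unit (norm_pos_iff.2 hne))⟩ : sphere (0 : X) 1) = a := by
      refine Subtype.ext ?_
      show ‖(a : X)‖⁻¹ • (a : X) = (a : X)
      rw [sph_norm a, inv_one, one_smul]
    rw [hpt, sph_norm a, one_smul]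
  have hdec : ∀ x : X, x ≠ 0 → ∃ a : sphere (0 : X) 1,
      x = ‖x‖ • (a : X) ∧ F x = ‖x‖ • (f a : Y) := fun x hx =>
    ⟨⟨‖x‖⁻¹ • x, mem_sphere_zero_iff_norm.2 (norm_unit (norm_pos_iff.2 hx))⟩,
      (smul_inv_smul₀ (norm_ne_zero_iff.2 hx) x).symm, dif_neg hx⟩
  have hnorm : ∀ x, ‖F x‖ = ‖x‖ := by
    intro x
    rcases eq_or_ne x 0 with rfl | hx
    · rw [hF0, norm_zero, norm_zero]
    · obtain ⟨a, -, ha⟩ := hdec x hx
      rw [ha, norm_smul, sph_norm, mul_one, norm_norm]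
  have exact3 : ∀ (a b c : sphere (0 : X) 1) (α β γ : ℝ),
      α • (a : X) + β • (b : X) + γ • (c : X) = 0 →
        α • (f a : Y) + β • (f b : Y) + γ • (f c : Y) = 0 := by
    intro a b c α β γ hrel
    set M := |α| + |β| + |γ| + 1
    have hM : 0 < M := by positivity
    have hle : ∀ t : ℝ, |t| ≤ M → |t / M| ≤ 1 := fun t ht => by
      rw [abs_div, abs_of_pos hM, div_le_one hM]; exact ht
    have hrel' : (α / M) • (a : X) + (β / M) • (b : X) + (γ / M) • (c : X) = 0 := by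
      rw [show (α / M) • (a : X) + (β / M) • (b : X) + (γ / M) • (c : X)
        = M⁻¹ • (α • (a : X) + β • (b : X) + γ • (c : X)) by
          simp only [smul_add, smul_smul, div_eq_inv_mul], hrel, smul_zero]
    have h0 : (α / M) • (f a : Y) + (β / M) • (f b : Y) + (γ / M) • (f c : Y) = 0 :=
      norm_le_zero_iff.1 <| le_of_forall_pos_le_add fun η hη => by
        rw [zero_add]
        exact h η hη a b c _ _ _ (hle α (by linarith [abs_nonneg β, abs_nonneg γ]))
          (hle β (by linarith [abs_nonneg α, abs_nonneg γ]))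
          (hle γ (by linarith [abs_nonneg α, abs_nonneg β])) hrel'
    rw [show α • (f a : Y) + β • (f b : Y) + γ • (f c : Y)
      = M • ((α / M) • (f a : Y) + (β / M) • (f b : Y) + (γ / M) • (f c : Y)) by
        simp only [smul_add, smul_smul, mul_div_cancel₀ _ hM.ne'], h0, smul_zero]
  have hneg : ∀ x, F (-x) = -F x := by
    intro x
    rcases eq_or_ne x 0 with rfl | hx
    · rw [neg_zero, hF0, neg_zero]
    obtain ⟨a, ha, ha'⟩ := hdec x hx
    obtain ⟨b, hb, hb'⟩ := hdec (-x) (neg_ne_zero.2 hx)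
    have := exact3 a b b ‖x‖ ‖-x‖ 0 (by rw [← ha, ← hb, zero_smul]; simp)
    rw [← ha', ← hb', zero_smul, add_zero] at this
    exact eq_neg_of_add_eq_zero_right this
  have hadd : ∀ x y, F (x + y) = F x + F y := by
    intro x y
    rcases eq_or_ne x 0 with rfl | hx
    · rw [hF0, zero_add, zero_add]
    rcases eq_or_ne y 0 with rfl | hy
    · rw [hF0, add_zero, add_zero]
    rcases eq_or_ne (x + y) 0 with hxy | hxy
    · rw [hxy, hF0, eq_neg_of_add_eq_zero_right hxy, hneg, add_neg_cancel]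
    obtain ⟨a, ha, ha'⟩ := hdec x hx
    obtain ⟨b, hb, hb'⟩ := hdec y hy
    obtain ⟨c, hc, hc'⟩ := hdec _ hxy
    have := exact3 a b c ‖x‖ ‖y‖ (-‖x + y‖) (by
      rw [neg_smul, ← ha, ← hb, ← hc]; abel)
    rw [neg_smul, ← ha', ← hb', ← hc', ← sub_eq_add_neg, sub_eq_zero] at this
    exact this.symm
  have hiso : Isometry F := Isometry.of_dist_eq fun x y => by
    rw [dist_eq_norm, dist_eq_norm, sub_eq_add_neg (F x), ← hneg, ← hadd, hnorm, sub_eq_add_neg]
  have hsurj : Function.Surjective F := by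
    intro y
    rcases eq_or_ne y 0 with rfl | hy
    · exact ⟨0, hF0⟩
    · obtain ⟨a, ha⟩ : ∃ a : sphere (0 : X) 1, (f a : Y) = ‖y‖⁻¹ • y :=
        ⟨f.symm ⟨‖y‖⁻¹ • y, mem_sphere_zero_iff_norm.2 (norm_unit (norm_pos_iff.2 hy))⟩, by simp⟩
      refine ⟨‖y‖ • (a : X), ?_⟩
      have hn : ‖‖y‖ • (a : X)‖ = ‖y‖ := by rw [norm_smul, sph_norm, mul_one, norm_norm]
      have hne : ‖y‖ • (a : X) ≠ 0 := norm_ne_zero_iff.1 (by rw [hn]; exact norm_ne_zero_iff.2 hy)
      obtain ⟨b, hb, hb'⟩ := hdec _ hne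
      rw [hn] at hb hb'
      have hba : b = a := Subtype.ext (smul_right_injective X (norm_ne_zero_iff.2 hy) hb).symm
      rw [hb', hba, ha, smul_inv_smul₀ (norm_ne_zero_iff.2 hy)]
  set e : X ≃ᵢ Y :=
    { toEquiv := Equiv.ofBijective F ⟨hiso.injective, hsurj⟩, isometry_toFun := hiso }
  exact ⟨e.toRealLinearIsometryEquivOfMapZero hF0, hFs⟩

/-- a space whose unit sphere is isometric to that of a Banach space is complete -/
theorem complete_target [CompleteSpace X] (f : sphere (0 : X) 1 ≃ᵢ sphere (0 : Y) 1) :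
    CompleteSpace Y := by
  have : CompleteSpace (sphere (0 : X) 1) := isClosed_sphere.completeSpace_coe
  have : CompleteSpace (sphere (0 : Y) 1) := f.symm.completeSpace
  refine Metric.complete_of_cauchySeq_tendsto fun u hu => ?_
  obtain ⟨L, hL⟩ := cauchySeq_tendsto_of_complete
    ((uniformContinuous_norm (E := Y)).comp_cauchySeq hu)
  have hL' : Tendsto (fun n => ‖u n‖) atTop (𝓝 L) := hL
  rcases (ge_of_tendsto' hL' fun n => norm_nonneg (u n)).eq_or_lt with h0 | h0
  · exact ⟨0, tendsto_zero_iff_norm_tendsto_zero.2 (by rwa [← h0] at hL')⟩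
  · obtain ⟨N, hN⟩ := eventually_atTop.1 (hL'.eventually_const_lt (half_lt_self h0))
    set w : ℕ → sphere (0 : Y) 1 := fun n => ⟨‖u (n + N)‖⁻¹ • u (n + N),
      mem_sphere_zero_iff_norm.2 (norm_unit ((half_pos h0).trans (hN _ (by omega))))⟩ with hw
    have hwc : CauchySeq w := by
      rw [Metric.cauchySeq_iff]
      intro ε hε
      obtain ⟨M, hM⟩ := Metric.cauchySeq_iff.1 hu (ε * L / 4) (by positivity)
      refine ⟨M, fun m hm n hn => ?_⟩
      have hm0 : L / 2 < ‖u (m + N)‖ := hN _ (by omega)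
      have hn0 : L / 2 < ‖u (n + N)‖ := hN _ (by omega)
      have hd := hM (m + N) (by omega) (n + N) (by omega)
      rw [dist_eq_norm] at hd
      rw [Subtype.dist_eq, dist_eq_norm]
      simp only [hw]
      rw [show ‖u (m + N)‖⁻¹ • u (m + N) - ‖u (n + N)‖⁻¹ • u (n + N)
        = ‖u (m + N)‖⁻¹ • ((u (m + N) - u (n + N))
          + (‖u (n + N)‖ - ‖u (m + N)‖) • (‖u (n + N)‖⁻¹ • u (n + N))) by
        rw [smul_add, smul_smul, smul_smul, smul_sub, mul_assoc, sub_mul,
          mul_inv_cancel₀ (by linarith : ‖u (n + N)‖ ≠ 0), mul_sub, mul_one, ← mul_assoc,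
          inv_mul_cancel₀ (by linarith : ‖u (m + N)‖ ≠ 0), one_mul, sub_smul]
        abel]
      rw [norm_smul_of_nonneg (by positivity), inv_mul_lt_iff₀ (by linarith)]
      refine (norm_add_le _ _).trans_lt ?_
      rw [norm_smul, norm_unit (m := u (n + N)) (by linarith), mul_one, Real.norm_eq_abs]
      have := abs_norm_sub_norm_le (u (n + N)) (u (m + N))
      rw [norm_sub_rev (u (n + N))] at this
      have : L / 2 * ε ≤ ‖u (m + N)‖ * ε := mul_le_mul_of_nonneg_right hm0.le hε.le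
      linarith
    obtain ⟨w₀, hw₀⟩ := cauchySeq_tendsto_of_complete hwc
    refine ⟨L • (w₀ : Y), (tendsto_add_atTop_iff_nat N).1 ?_⟩
    refine ((((tendsto_add_atTop_iff_nat N).2 hL').smul
      ((continuous_subtype_val.tendsto w₀).comp hw₀))).congr fun n => ?_
    simp only [hw, Function.comp]
    exact smul_inv_smul₀ (by linarith [hN (n + N) (by omega)] : ‖u (n + N)‖ ≠ 0) _

theorem mazurUlam_infinite (X : Type u) [NormedAddCommGroup X] [NormedSpace ℝ X] [CompleteSpace X]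
    [UniformConvexSpace X] (hinf : ¬ FiniteDimensional ℝ X) (Y : Type v) [NormedAddCommGroup Y]
    [NormedSpace ℝ Y] (f : sphere (0 : X) 1 ≃ᵢ sphere (0 : Y) 1) :
    ∃ T : X ≃ₗᵢ[ℝ] Y, ∀ x : sphere (0 : X) 1, T x = (f x : Y) := by
  classical
  have := complete_target f
  let F : X → Y := fun x => if h : x ∈ sphere (0 : X) 1 then (f ⟨x, h⟩ : Y) else 0
  let G : Y → X := fun y => if h : y ∈ sphere (0 : Y) 1 then (f.symm ⟨y, h⟩ : X) else 0
  have mX : ∀ x : X, ‖x‖ = 1 → x ∈ sphere (0 : X) 1 := fun x => mem_sphere_zero_iff_norm.mpr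
  have mY : ∀ y : Y, ‖y‖ = 1 → y ∈ sphere (0 : Y) 1 := fun y => mem_sphere_zero_iff_norm.mpr
  have hF : ∀ x (h : ‖x‖ = 1), F x = (f ⟨x, mX x h⟩ : Y) := fun x h => dif_pos (mX x h)
  have hG : ∀ y (h : ‖y‖ = 1), G y = (f.symm ⟨y, mY y h⟩ : X) := fun y h => dif_pos (mY y h)
  have H : SIso F G := by
    refine ⟨fun x h => ?_, fun y h => ?_, fun x h => ?_, fun y h => ?_, fun x x' h h' => ?_⟩
    · rw [hF x h]; exact sph_norm _
    · rw [hG y h]; exact sph_norm _
    · have h1 : ‖F x‖ = 1 := by rw [hF x h]; exact sph_norm _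
      rw [hG _ h1]; simp [hF x h]
    · have h1 : ‖G y‖ = 1 := by rw [hG y h]; exact sph_norm _
      rw [hF _ h1]; simp [hG y h]
    · rw [hF x h, hF x' h']; exact iso_norm_sub f _ _
  have := H.uniformConvexSpace
  have hodd : OddMap f := fun a b hab => by
    have h1 := H.odd (sph_norm a)
    rw [← hab, hF _ (sph_norm a), hF _ (sph_norm b)] at h1
    exact h1
  have hodd' : OddMap f.symm := by
    intro a b hab
    have h := hodd (f.symm a) ⟨-(f.symm a : X), by simp⟩ rfl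
    rw [IsometryEquiv.apply_symm_apply, ← hab] at h
    rw [← Subtype.ext h, IsometryEquiv.symm_apply_apply]
  have key : ∀ η, 0 < η → AddClose f η ∨ AddClose f.symm η := by
    intro η hη
    obtain ⟨δ₁, hδ₁, h₁⟩ := endPin nearPin (keyPin X) Y f hodd η hη
    obtain ⟨δ₂, hδ₂, h₂⟩ := endPin nearPin (keyPin Y) X f.symm hodd' η hη
    obtain ⟨e, he, he1, hd⟩ := densePin X Y hinf (min δ₁ δ₂) (lt_min hδ₁ hδ₂)
    obtain ⟨K₁, a₁, hK₁, ha₁, r₁, hr₁, k₁⟩ := h₁ e he he1
    obtain ⟨K₂, a₂, hK₂, ha₂, r₂, hr₂, k₂⟩ := h₂ e he he1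
    obtain ⟨r, G, hr, hr₀, hG, -, hGdef, hX, hY⟩ := hd (max K₁ K₂) (min a₁ a₂)
      (lt_max_of_lt_left hK₁) (lt_min ha₁ ha₂) (min r₁ r₂) (lt_min hr₁ hr₂)
    simp only [le_min_iff] at hr₀
    rcases le_total (gain Y r) (gain X r) with hs | hs
    · rw [max_eq_left hs] at hGdef
      subst hGdef
      refine Or.inl (k₁ r hr hr₀.1 hG hs (hX.weaken (min_le_left _ _) ?_ ?_ ?_))
      · gcongr; exact le_max_left _ _
      · gcongr; exact min_le_left _ _
      · gcongr; exact min_le_left _ _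
    · rw [max_eq_right hs] at hGdef
      subst hGdef
      refine Or.inr (k₂ r hr hr₀.2 hG hs (hY.weaken (min_le_right _ _) ?_ ?_ ?_))
      · gcongr; exact le_max_right _ _
      · gcongr; exact min_le_right _ _
      · gcongr; exact min_le_right _ _
  by_cases hside : ∀ η, 0 < η → AddClose f η
  · exact linear_of_addClose hside
  push Not at hside
  obtain ⟨η₁, hη₁, hbad⟩ := hside
  have hY : ∀ η, 0 < η → AddClose f.symm η := fun η hη =>
    (key (min η η₁) (lt_min hη hη₁)).elim (fun h => absurd (h.mono (min_le_right _ _)) hbad)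
      fun h => h.mono (min_le_left _ _)
  obtain ⟨T, hT⟩ := linear_of_addClose hY
  refine ⟨T.symm, fun x => ?_⟩
  rw [LinearIsometryEquiv.symm_apply_eq, hT, IsometryEquiv.symm_apply_apply]

end Vale.Agent.P084.UC
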