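import Vale.Agent.P084.UC.Defs

/-!
P084 for uniformly convex spaces: interfaces between the blocks.
-/

open Filter Topology Metric

namespace Vale.Agent.P084.UC

open Vale.Agent.P084.Smooth

universe u v

variable (X : Type u) [NormedAddCommGroup X] [NormedSpace ℝ X]

/-- block A+B: at arbitrarily small scales good directions are dense in both spaces -/
def DensePin : Prop :=
  ∀ (Y : Type v) [NormedAddCommGroup Y] [NormedSpace ℝ Y] [CompleteSpace X] [CompleteSpace Y]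
    [UniformConvexSpace X] [UniformConvexSpace Y], ¬ FiniteDimensional ℝ X →
    ∀ δ : ℝ, 0 < δ → ∃ e : ℝ, 0 < e ∧ e ≤ 1 / 2 ∧ ∀ K a : ℝ, 0 < K → 0 < a → ∀ r₀ : ℝ, 0 < r₀ →
      ∃ r G : ℝ, 0 < r ∧ r ≤ r₀ ∧ 0 < G ∧ G ≤ r ∧ G = max (gain X r) (gain Y r) ∧
        GoodDense X a (e * r) (K * G) (δ * e * G) (δ * G) ∧
        GoodDense Y a (e * r) (K * G) (δ * e * G) (δ * G)

/-- block C: the weak limit of the image lies near the image of a near point -/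
def NearPin : Prop :=
  ∀ (Y : Type v) [NormedAddCommGroup Y] [NormedSpace ℝ Y] [CompleteSpace Y] [UniformConvexSpace Y],
    ∃ σ : ℝ, 0 < σ ∧ ∃ K : ℝ, 1 ≤ K ∧ ∀ (f : sphere (0 : X) 1 ≃ᵢ sphere (0 : Y) 1) (r G : ℝ)
      (st : St f r) (a : sphere (0 : X) 1), 0 ≤ r → r ≤ σ → gain X r ≤ G → gain Y r ≤ G → G ≤ σ →
        ‖st.v - a‖ ≤ σ → ‖st.u - (f a : Y)‖ ≤ K * (‖st.v - a‖ + G)

/-- block D: a state near one end of a good chord cannot separate its two functionals -/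
def KeyPin : Prop :=
  ∀ (Y : Type v) [NormedAddCommGroup Y] [NormedSpace ℝ Y] [CompleteSpace X] [CompleteSpace Y]
    [UniformConvexSpace X] [UniformConvexSpace Y] (l η : ℝ), 0 < l → l ≤ 1 → 0 < η →
    ∃ δ : ℝ, 0 < δ ∧ ∀ e : ℝ, 0 < e → e ≤ 1 / 2 → ∀ M : ℝ, 0 ≤ M → ∃ K : ℝ, 0 < K ∧
      ∃ r₀ : ℝ, 0 < r₀ ∧ ∀ (f : sphere (0 : X) 1 ≃ᵢ sphere (0 : Y) 1), OddMap f →
        ∀ (z w : sphere (0 : X) 1), l ≤ ‖(z : X) - w‖ → ∀ (r G : ℝ) (st : St f r),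
          0 < r → r ≤ r₀ → gain X r ≤ G → gain Y r ≤ G → 0 < G → G ≤ r →
            Good (chordDir (z : X) w) (e * r) (K * G) (δ * e * G) (δ * G) →
              ‖st.v - z‖ ≤ M * G →
                |J ((f z : Y) - f w) (st.u - (f z : Y)) - J ((z : X) - w) (st.v - z)| ≤ η * G

/-- block E: where the gain is attained in the source, `f` is nearly additive -/
def EndPin : Prop :=
  ∀ (Y : Type v) [NormedAddCommGroup Y] [NormedSpace ℝ Y] [CompleteSpace X] [CompleteSpace Y]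
    [UniformConvexSpace X] [UniformConvexSpace Y] (f : sphere (0 : X) 1 ≃ᵢ sphere (0 : Y) 1),
    OddMap f → ∀ η : ℝ, 0 < η → ∃ δ : ℝ, 0 < δ ∧ ∀ e : ℝ, 0 < e → e ≤ 1 / 2 →
      ∃ K a : ℝ, 0 < K ∧ 0 < a ∧ ∃ r₀ : ℝ, 0 < r₀ ∧ ∀ r : ℝ, 0 < r → r ≤ r₀ →
        0 < gain X r → gain Y r ≤ gain X r →
          GoodDense X a (e * r) (K * gain X r) (δ * e * gain X r) (δ * gain X r) → AddClose f η

end Vale.Agent.P084.UC
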